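import Vale.Agent.P122.H380.FrameS

/-!
# P122 / the frame lemma (helper380)

If two boxes `U₁`, `U₂` around the same tube are nearly optimal under every dense law, then both
wide directions are a function `φ` of the tube and of `C`, off a rare event.
-/

set_option autoImplicit false

namespace Vale.Agent.P122.H380

open Filter Topology Vale.Agent.P127 Vale.Agent.P127.Stk Vale.Agent.P127.U Vale.Agent.P127.U.Sys

section systems

variable {S : Sys} {γ : Type}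

theorem on_supp {Ω : Type} [Fintype Ω] {P : Law Ω} {A : Ω → Prop} {ω : Ω}
    (h : 0 < (Stk.on P A).w ω) : 0 < P.w ω := by
  classical
  by_cases h0 : 0 < prE P A
  · exact (Stk.on_pos h0 h).2
  · have e : Stk.on P A = P := by
      unfold Stk.on Law.cond
      rw [dif_neg]
      rw [prE_eq_aux]
      exact h0
    rwa [e] at h

/-- the label of a box does not change if the line is moved inside the tube -/
theorem lab_tube' {n g : ℕ} (hg : g ≤ n) {l l' : Ln} {θ : ℝ} (e : tb n l = tb n l') :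
    LabCl 3 (lab θ g n l) (lab θ g n l') := C1.lab_tube hg e rfl

/-- **the dense event** : two copies of nearly optimal boxes cannot cross at a large angle -/
theorem no_dense' {n : ℕ → ℕ} (hn : S.Bd n) {l : S.RV Ln} (hl : LnA l) (C : S.RV γ)
    {U₁ U₂ : S.BX} (h1 : Around n l U₁) (h2 : Around n l U₂) {k₁ k₂ : ℕ → ℕ}
    (hk₁ : S.Ae fun i ω => (U₁ i).k ω = k₁ i) (hk₂ : S.Ae fun i ω => (U₂ i).k ω = k₂ i)
    {v₁ v₂ x g : ℝ} (hg : g < v₁ + v₂ - x)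
    (H₁ : ∀ (S' : Sys) (d : E.Dns S' S), (∀ i ω, 0 < (S'.P i).w ω → 0 < (S.P i).w (d.π i ω)) →
      v₁ ≤ S'.val (tubes n (d.pull l)) (d.pullB U₁) (d.pull C))
    (H₂ : ∀ (S' : Sys) (d : E.Dns S' S), (∀ i ω, 0 < (S'.P i).w ω → 0 < (S.P i).w (d.π i ω)) →
      v₂ ≤ S'.val (tubes n (d.pull l)) (d.pullB U₂) (d.pull C))
    (Hx : ∀ (S' : Sys) (d : E.Dns S' S), (∀ i ω, 0 < (S'.P i).w ω → 0 < (S.P i).w (d.π i ω)) →
      S'.exc (tubes n (d.pull l)) (d.pull C) ≤ x)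
    (hA : ∀ κ : ℝ, 0 < κ → ∀ᶠ i in (uf : Filter ℕ), (2:ℝ) ^ (-(κ * S.L i)) <
      prE (cp (S.P i) ((Sys.pr (tbs n l) C) i)) (fun w =>
        (lvd (n i) (k₁ i) (k₂ i) ((U₁ i).θ w.1) ((U₂ i).θ w.2) : ℝ) < g * S.L i)) : False := by
  set W : S.RV (((Fin 2 → ℤ) × (Fin 2 → ℤ)) × γ) := Sys.pr (tbs n l) C with hW
  set A : ∀ i, (cpS S W).Ω i → Prop := fun i w =>
    (lvd (n i) (k₁ i) (k₂ i) ((U₁ i).θ w.1) ((U₂ i).θ w.2) : ℝ) < g * S.L i with hAdef
  let S₃ : Sys := onS (cpS S W) A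
  let d : E.Dns S₃ (cpS S W) := onDns (cpS S W) A hA
  let d₀ : E.Dns S₃ S := dExt d (cp0 S W)
  let d₁ : E.Dns S₃ S := dExt d (cp1 S W)
  -- facts on the support
  have fA : S₃.Ae fun i w => A i w := onS_supp (S := cpS S W) hA
  have fW : S₃.Ae fun i w => W i w.1 = W i w.2 := dns_ae d (cpS_ae W)
  have fAll : S.Ae fun i ω => (U₁ i).l ω = l i ω ∧ (U₂ i).l ω = l i ω ∧ (U₁ i).j ω = n i ∧
      (U₂ i).j ω = n i ∧ (U₁ i).k ω = k₁ i ∧ (U₂ i).k ω = k₂ i ∧ BxOk (U₁ i) ω ∧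
      BxOk (U₂ i) ω := by
    filter_upwards [h1.ok.1, h2.ok.1, h1.line, h2.line, h1.thick, h2.thick, hk₁, hk₂] with
      i a1 a2 a3 a4 a5 a6 a7 a8 ω p
    exact ⟨a3 ω p, a4 ω p, a5 ω p, a6 ω p, a7 ω p, a8 ω p, a1 ω p, a2 ω p⟩
  have f0 := dns_ae d₀ fAll
  have f1 := dns_ae d₁ fAll
  -- the data on `S₃`
  set l₃ : S₃.RV Ln := d₀.pull l with hl₃
  have hn₃ : S₃.Bd n := dns_bd d₀ hn
  have hlA : LnA l₃ := dns_ae d₀ hl
  set C₃ : S₃.RV γ := d₀.pull C with hC₃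
  set V₁ : S₃.BX := d₀.pullB U₁ with hV₁
  set V₂ : S₃.BX := d₁.pullB U₂ with hV₂
  let V : S₃.BX := fun i => ⟨fun w => l i w.1, fun w => (U₂ i).θ w.2, fun w => (U₂ i).k w.2,
    fun w => (U₂ i).j w.2⟩
  have okV₂ : BxA V₂ := dns_bxA d₁ h2.ok
  have okV : BxA V := by
    refine ⟨?_, ?_⟩
    · filter_upwards [f1, hlA] with i g1 g2 w p
      obtain ⟨-, -, -, -, -, -, -, q⟩ := g1 w p
      exact ⟨g2 w p, q.2.1, q.2.2⟩
    · obtain ⟨c, hc⟩ := okV₂.2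
      exact ⟨c, hc⟩
  have a1 : Around n l₃ V₁ := by
    refine ⟨dns_bxA d₀ h1.ok, ?_, ?_⟩
    · filter_upwards [f0] with i g0 w p using (g0 w p).1
    · filter_upwards [f0] with i g0 w p using (g0 w p).2.2.1
  have a2 : Around n l₃ V := by
    refine ⟨okV, ?_, ?_⟩
    · exact Eventually.of_forall fun i w _ => rfl
    · filter_upwards [f1] with i g1 w p using (g1 w p).2.2.2.1
  have b1 : S₃.Ae fun i w => (V₁ i).k w = k₁ i := by
    filter_upwards [f0] with i g0 w p using (g0 w p).2.2.2.2.1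
  have b2 : S₃.Ae fun i w => (V i).k w = k₂ i := by
    filter_upwards [f1] with i g1 w p using (g1 w p).2.2.2.2.2.1
  have key := uncross_sym hn₃ hlA C₃ a1 a2 b1 b2
  -- closeness of the labels of `V` and `V₂`
  have cl : S₃.Ae fun i w => LabCl 3 (BX.lab V i w) (BX.lab V₂ i w) := by
    filter_upwards [f1, fW] with i g1 gW w p
    obtain ⟨-, q2, -, q4, -, -, -, q8⟩ := g1 w p
    have e1 : tb (n i) (l i w.1) = tb (n i) (l i w.2) := congrArg Prod.fst (gW w p)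
    have hk : (U₂ i).k w.2 ≤ n i := by
      have h3 : (U₂ i).k w.2 ≤ (U₂ i).j w.2 := q8.2.2
      have h4 : (U₂ i).j w.2 = n i := q4
      omega
    have e2 : BX.lab V i w = lab ((U₂ i).θ w.2) ((U₂ i).k w.2) (n i) (l i w.1) := by
      show lab ((U₂ i).θ w.2) ((U₂ i).k w.2) ((U₂ i).j w.2) (l i w.1) = _
      have h4 : (U₂ i).j w.2 = n i := q4
      rw [h4]
    have e3 : BX.lab V₂ i w = lab ((U₂ i).θ w.2) ((U₂ i).k w.2) (n i) (l i w.2) := by
      show lab ((U₂ i).θ w.2) ((U₂ i).k w.2) ((U₂ i).j w.2) ((U₂ i).l w.2) = _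
      have h4 : (U₂ i).j w.2 = n i := q4
      have h5 : (U₂ i).l w.2 = l i w.2 := q2
      rw [h4, h5]
    rw [e2, e3]
    exact lab_tube' hk e1
  have cl' : S₃.Ae fun i w => LabCl 3 (BX.lab V₂ i w) (BX.lab V i w) := by
    filter_upwards [cl] with i hi w p using (hi w p).symm
  have tV : Tame (BX.lab V) := okV.tame
  have tV₂ : Tame (BX.lab V₂) := okV₂.tame
  -- replacement of the label
  have rep : ∀ {T : Type} (Y : S₃.RV T), S₃.hc (BX.lab V) Y = S₃.hc (BX.lab V₂) Y := by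
    intro T Y
    refine le_antisymm ?_ ?_
    · exact hc_le_of_zero tV tV₂ (hc_of_labCl 3 cl _)
    · exact hc_le_of_zero tV₂ tV (hc_of_labCl 3 cl' _)
  -- the mutual information vanishes
  have m0 : S₃.mi (BX.lab V) (BX.lab V₁) (Sys.pr (tbs n l₃) C₃) ≤ 0 := by
    have h3 := mi_cpS (S' := S₃) (W := W) d (X := BX.lab U₁) (Y := BX.lab U₂) tV₂
    have e1 : S₃.mi (BX.lab V) (BX.lab V₁) (Sys.pr (tbs n l₃) C₃) =
        S₃.mi (BX.lab V₂) (BX.lab V₁) (Sys.pr (tbs n l₃) C₃) := by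
      unfold Sys.mi
      rw [rep, rep]
    rw [e1]
    exact h3
  -- the value of `V`
  have tT0 : Tame (tbs n l₃) := tame_tbs hn₃ hlA
  have okT0 : BxA (tubes n l₃) := tubes_ok hn₃ hlA
  have okT1 : BxA (tubes n (d₁.pull l)) := tubes_ok hn₃ (dns_ae d₁ hl)
  have ev : S₃.val (tubes n (d₁.pull l)) V₂ (d₁.pull C) = S₃.val (tubes n l₃) V C₃ := by
    unfold Sys.val
    have hT : ∀ᶠ i in (uf : Filter ℕ), ∀ w, 0 < (S₃.P i).w w →
        (tubes n (d₁.pull l)).lab i w = (tubes n l₃).lab i w ∧ (d₁.pull C) i w = C₃ i w := by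
      filter_upwards [fW] with i gW w p
      have e1 : tb (n i) (l i w.1) = tb (n i) (l i w.2) := congrArg Prod.fst (gW w p)
      have e2 : C i w.1 = C i w.2 := congrArg Prod.snd (gW w p)
      refine ⟨?_, e2.symm⟩
      show lab 0 (n i) (n i) (l i w.2) = lab 0 (n i) (n i) (l i w.1)
      exact (C1.lab_tube_iff (n i) _ _).2 e1.symm
    have c1 : S₃.hc (BX.lab (tubes n (d₁.pull l))) (Sys.pr (BX.lab V₂) (d₁.pull C)) =
        S₃.hc (BX.lab (tubes n l₃)) (Sys.pr (BX.lab V₂) C₃) := by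
      refine hc_congr ?_ ?_ ?_ ?_
      · filter_upwards [hT] with i hi w w' p p' q
        rw [(hi w p).1, (hi w' p').1]
        exact congrArg Prod.fst q
      · filter_upwards [hT] with i hi w w' p p' q
        rw [← (hi w p).1, ← (hi w' p').1]
        exact congrArg Prod.fst q
      · filter_upwards [hT] with i hi w w' p p' q
        simp only [Sys.pr_apply, Prod.mk.injEq] at q ⊢
        rw [(hi w p).2, (hi w' p').2]
        exact q
      · filter_upwards [hT] with i hi w w' p p' q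
        simp only [Sys.pr_apply, Prod.mk.injEq] at q ⊢
        rw [← (hi w p).2, ← (hi w' p').2]
        exact q
    have c2 : S₃.hc (BX.lab (tubes n l₃)) (Sys.pr (BX.lab V₂) C₃) =
        S₃.hc (BX.lab (tubes n l₃)) (Sys.pr (BX.lab V) C₃) := by
      have tX : Tame (BX.lab (tubes n l₃)) := okT0.tame
      have z1 : S₃.hc (BX.lab V) (Sys.pr (BX.lab V₂) C₃) = 0 := hc_of_labCl 3 cl _
      have z2 : S₃.hc (BX.lab V₂) (Sys.pr (BX.lab V) C₃) = 0 := hc_of_labCl 3 cl' _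
      have s1 := hc_cond_zero tX tV z1
      have s2 := hc_cond_zero tX tV₂ z2
      rw [← s1, ← s2]
      exact hc_congr (Eventually.of_forall fun _ _ _ _ _ q => congrArg Prod.fst q)
        (Eventually.of_forall fun _ _ _ _ _ q => congrArg Prod.fst q)
        (Eventually.of_forall fun _ _ _ _ _ q => by
          simp only [Sys.pr_apply, Prod.mk.injEq] at q ⊢
          exact ⟨q.2.1, q.1, q.2.2⟩)
        (Eventually.of_forall fun _ _ _ _ _ q => by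
          simp only [Sys.pr_apply, Prod.mk.injEq] at q ⊢
          exact ⟨q.2.1, q.1, q.2.2⟩)
    rw [c1, c2]
    rfl
  -- the average of the level
  have mA : S₃.av (fun i w => (lvd (n i) (k₁ i) (k₂ i) ((V₁ i).θ w) ((V i).θ w) : ℝ)) ≤ g := by
    have oL : OL (S := S₃) fun i w =>
        (lvd (n i) (k₁ i) (k₂ i) ((V₁ i).θ w) ((V i).θ w) : ℝ) :=
      ol_nat hn₃ (fun i w => lvd (n i) (k₁ i) (k₂ i) ((V₁ i).θ w) ((V i).θ w))
        fun i w => (C1.lev_le _ _).trans (Nat.sub_le _ _)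
    unfold Sys.av
    refine ulim_le_const (UB.av oL) ?_
    filter_upwards [fA, S₃.L_pos] with i hi hL
    have hL' : (0:ℝ) < S₃.L i := by exact_mod_cast hL
    rw [div_le_iff₀ hL']
    have h3 := (S₃.P i).ex_mono (f := fun w =>
      (lvd (n i) (k₁ i) (k₂ i) ((V₁ i).θ w) ((V i).θ w) : ℝ)) (g := fun _ => g * S₃.L i)
      (fun w p => (hi w p).le)
    rwa [(S₃.P i).ex_const] at h3
  have sp : ∀ i w, 0 < (S₃.P i).w w → 0 < ((cpS S W).P i).w w := fun i w hw => on_supp hw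
  have sp0 : ∀ i w, 0 < (S₃.P i).w w → 0 < (S.P i).w (d₀.π i w) := fun i w hw =>
    (cp_supp (sp i w hw)).2.1
  have sp1 : ∀ i w, 0 < (S₃.P i).w w → 0 < (S.P i).w (d₁.π i w) := fun i w hw =>
    (cp_supp (sp i w hw)).2.2
  have x1 := H₁ S₃ d₀ sp0
  have x2 := H₂ S₃ d₁ sp1
  have x3 := Hx S₃ d₀ sp0
  have x2' : v₂ ≤ S₃.val (tubes n l₃) V C₃ := by
    rw [← ev]
    exact x2
  linarith

/-- if the level is large, the angle is small -/
theorem sin_le_of_lvd {n k₁ k₂ : ℕ} {a b g L : ℝ} (h : g * L ≤ (lvd n k₁ k₂ a b : ℝ)) :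
    |Real.sin (a - b)| ≤ 2 * (2:ℝ) ^ (-(g * L)) := by
  have h1 : |Real.sin (a - b)| ≤ 2 * (1 / 2 : ℝ) ^ (lvd n k₁ k₂ a b) := by
    refine C1.le_lev ?_
    have := Real.abs_sin_le_one (a - b)
    linarith
  refine h1.trans ?_
  have h2 : (1 / 2 : ℝ) ^ (lvd n k₁ k₂ a b) = (2:ℝ) ^ (-(lvd n k₁ k₂ a b : ℝ)) := by
    rw [Real.rpow_neg (by norm_num), Real.rpow_natCast, one_div, inv_pow]
  rw [h2]
  have h3 : (2:ℝ) ^ (-(lvd n k₁ k₂ a b : ℝ)) ≤ (2:ℝ) ^ (-(g * L)) :=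
    Real.rpow_le_rpow_of_exponent_le (by norm_num) (by linarith)
  linarith

/-- **frame lemma** -/
theorem frame' {n : ℕ → ℕ} (hn : S.Bd n) {l : S.RV Ln} (hl : LnA l) (C : S.RV γ)
    {U₁ U₂ : S.BX} (h1 : Around n l U₁) (h2 : Around n l U₂) {k₁ k₂ : ℕ → ℕ}
    (hk₁ : S.Ae fun i ω => (U₁ i).k ω = k₁ i) (hk₂ : S.Ae fun i ω => (U₂ i).k ω = k₂ i)
    {v₁ v₂ x g : ℝ} (hg : g < v₁ + v₂ - x)
    (H₁ : ∀ (S' : Sys) (d : E.Dns S' S), (∀ i ω, 0 < (S'.P i).w ω → 0 < (S.P i).w (d.π i ω)) →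
      v₁ ≤ S'.val (tubes n (d.pull l)) (d.pullB U₁) (d.pull C))
    (H₂ : ∀ (S' : Sys) (d : E.Dns S' S), (∀ i ω, 0 < (S'.P i).w ω → 0 < (S.P i).w (d.π i ω)) →
      v₂ ≤ S'.val (tubes n (d.pull l)) (d.pullB U₂) (d.pull C))
    (Hx : ∀ (S' : Sys) (d : E.Dns S' S), (∀ i ω, 0 < (S'.P i).w ω → 0 < (S.P i).w (d.π i ω)) →
      S'.exc (tubes n (d.pull l)) (d.pull C) ≤ x) :
    ∃ φ : S.RV ℝ, (∀ i ω ω', tbs n l i ω = tbs n l i ω' → C i ω = C i ω' → φ i ω = φ i ω') ∧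
      E.Rare S (fun i ω => 4 * (2:ℝ) ^ (-(g * S.L i)) < |Real.sin ((U₁ i).θ ω - φ i ω)|) ∧
      E.Rare S (fun i ω => 4 * (2:ℝ) ^ (-(g * S.L i)) < |Real.sin ((U₂ i).θ ω - φ i ω)|) := by
  set W : S.RV (((Fin 2 → ℤ) × (Fin 2 → ℤ)) × γ) := Sys.pr (tbs n l) C with hW
  set R : ∀ i, S.Ω i → S.Ω i → Prop := fun i a b =>
    (lvd (n i) (k₁ i) (k₂ i) ((U₁ i).θ a) ((U₂ i).θ b) : ℝ) < g * S.L i with hR
  -- the probability of the bad event is exponentially small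
  obtain ⟨κ, hκ, hκ'⟩ : ∃ κ : ℝ, 0 < κ ∧ ∀ᶠ i in (uf : Filter ℕ),
      prE (cp (S.P i) (W i)) (fun w => R i w.1 w.2) ≤ (2:ℝ) ^ (-(κ * S.L i)) := by
    by_contra hcon
    push Not at hcon
    exact no_dense' hn hl C h1 h2 hk₁ hk₂ hg H₁ H₂ Hx fun κ hκ => hcon κ hκ
  choose s hs1 hs2 hs3 using fun i => select (S.P i) (W i) (R i)
  refine ⟨fun i ω => (U₁ i).θ (s i ω), ?_, ?_, ?_⟩
  · intro i ω ω' e1 e2
    show (U₁ i).θ (s i ω) = (U₁ i).θ (s i ω')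
    rw [hs2 i ω ω' (Prod.ext e1 e2)]
  · -- the first box
    refine ⟨κ / 2, by positivity, ?_⟩
    have hL : ∀ᶠ i in (uf : Filter ℕ), 2 / κ ≤ S.L i :=
      (tendsto_natCast_atTop_atTop.comp S.Ltop).eventually_ge_atTop (2 / κ)
    filter_upwards [hκ', hL] with i hi hLi
    rw [prb_eq]
    set p : ℝ := (2:ℝ) ^ (-(κ * S.L i)) with hp
    have e1 : prE (S.P i) (fun ω => 4 * (2:ℝ) ^ (-(g * S.L i)) <
        |Real.sin ((U₁ i).θ ω - (U₁ i).θ (s i ω))|) ≤ p + p := by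
      rw [← prE_cp_fst (S.P i) (W i)]
      have e2 : prE (cp (S.P i) (W i)) (fun w => 4 * (2:ℝ) ^ (-(g * S.L i)) <
          |Real.sin ((U₁ i).θ w.1 - (U₁ i).θ (s i w.1))|) ≤
          prE (cp (S.P i) (W i)) (fun w => R i w.1 w.2 ∨ R i (s i w.2) w.2) := by
        refine prE_mono' _ fun w hw hbad => ?_
        by_contra hcon
        push Not at hcon
        obtain ⟨q1, q2⟩ := hcon
        have q1' := sin_le_of_lvd (not_lt.1 q1)
        have q2' := sin_le_of_lvd (not_lt.1 q2)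
        have es : s i w.1 = s i w.2 := hs2 i _ _ (cp_supp hw).1
        rw [es] at hbad
        have e3 : (U₁ i).θ w.1 - (U₁ i).θ (s i w.2) =
            ((U₁ i).θ w.1 - (U₂ i).θ w.2) + ((U₂ i).θ w.2 - (U₁ i).θ (s i w.2)) := by ring
        rw [e3] at hbad
        have e4 := ExcB.sin_add_abs ((U₁ i).θ w.1 - (U₂ i).θ w.2)
          ((U₂ i).θ w.2 - (U₁ i).θ (s i w.2))
        rw [abs_sin_comm ((U₂ i).θ w.2) ((U₁ i).θ (s i w.2))] at e4
        linarith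
      refine e2.trans ((prE_or_le _ _ _).trans ?_)
      have e5 : prE (cp (S.P i) (W i)) (fun w => R i (s i w.2) w.2) ≤ p := by
        rw [prE_cp_snd (S.P i) (W i) (fun ω => R i (s i ω) ω)]
        exact (hs3 i).trans hi
      exact add_le_add hi e5
    refine e1.trans ?_
    have e6 : p + p = (2:ℝ) ^ (1 + -(κ * S.L i)) := by
      rw [Real.rpow_add (by norm_num), Real.rpow_one]
      ring
    rw [e6]
    refine Real.rpow_le_rpow_of_exponent_le (by norm_num) ?_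
    rw [div_le_iff₀ hκ] at hLi
    linarith
  · -- the second box
    refine ⟨κ, hκ, ?_⟩
    filter_upwards [hκ'] with i hi
    rw [prb_eq]
    refine le_trans (prE_mono' _ fun ω hω hbad => ?_) ((hs3 i).trans hi)
    by_contra q
    have q' := sin_le_of_lvd (not_lt.1 q)
    rw [abs_sin_comm] at q'
    have hp : (0:ℝ) < (2:ℝ) ^ (-(g * S.L i)) := by positivity
    linarith

/-- **frame lemma**, bounds for all dense laws -/
theorem frame {n : ℕ → ℕ} (hn : S.Bd n) {l : S.RV Ln} (hl : LnA l) (C : S.RV γ)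
    {U₁ U₂ : S.BX} (h1 : Around n l U₁) (h2 : Around n l U₂) {k₁ k₂ : ℕ → ℕ}
    (hk₁ : S.Ae fun i ω => (U₁ i).k ω = k₁ i) (hk₂ : S.Ae fun i ω => (U₂ i).k ω = k₂ i)
    {v₁ v₂ x g : ℝ} (hg : g < v₁ + v₂ - x)
    (H₁ : ∀ (S' : Sys) (d : E.Dns S' S), v₁ ≤ S'.val (tubes n (d.pull l)) (d.pullB U₁) (d.pull C))
    (H₂ : ∀ (S' : Sys) (d : E.Dns S' S), v₂ ≤ S'.val (tubes n (d.pull l)) (d.pullB U₂) (d.pull C))
    (Hx : ∀ (S' : Sys) (d : E.Dns S' S), S'.exc (tubes n (d.pull l)) (d.pull C) ≤ x) :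
    ∃ φ : S.RV ℝ, (∀ i ω ω', tbs n l i ω = tbs n l i ω' → C i ω = C i ω' → φ i ω = φ i ω') ∧
      E.Rare S (fun i ω => 4 * (2:ℝ) ^ (-(g * S.L i)) < |Real.sin ((U₁ i).θ ω - φ i ω)|) ∧
      E.Rare S (fun i ω => 4 * (2:ℝ) ^ (-(g * S.L i)) < |Real.sin ((U₂ i).θ ω - φ i ω)|) :=
  frame' hn hl C h1 h2 hk₁ hk₂ hg (fun S' d _ => H₁ S' d) (fun S' d _ => H₂ S' d)
    fun S' d _ => Hx S' d

end systems

end Vale.Agent.P122.H380
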