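import Vale.Agent.P122.E.Res
import Vale.Agent.P122.H380.Frame
import Vale.Agent.P122.H823.Lst

/-!
# P122 / E8 from the frame lemma, the lower bound for the cut planks and the upper bound for the
excess of the pieces (helper380)

* `StLst` : the line `lst` is normalised and the cut planks are boxes around it.
* `StCut A` : value of the cut planks. `StExc A` : excess of the pieces. `StLip A` : Lipschitz bound.
* `e8_of` : these imply `E8 κ C₀` with explicit `κ`, `C₀`.
-/

set_option autoImplicit false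

namespace Vale.Agent.P122.H380

open Filter Topology Vale.Agent.P127 Vale.Agent.P127.Stk Vale.Agent.P127.U Vale.Agent.P127.U.Sys
  Vale.Agent.P122.C2 Vale.Agent.P122.E

/-- the cut planks are boxes around the normalised line `lst` -/
def StLst : Prop := AllA fun {K} F _ _ _ _ W kk _ => ∀ c c' d, 1 ≤ c → c ≤ c' → c' ≤ d → d ≤ 2 * c →
  d ≤ K → LnA (F.lst c d) ∧ Around (F.m (2 * c - d)) (F.lst c d) (F.cut W kk c c' d)

/-- lower bound for the value of the cut planks -/
def StCut (A : ℝ) : Prop := AllA fun {K} F _ _ _ e W kk jj => ∀ c c' d, 1 ≤ c → c ≤ c' → c' ≤ d →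
  d ≤ 2 * c → d ≤ K →
  e c' - A / K - A * (((d:ℝ) - c) / K) - A * (nα F jj c' - (c':ℝ) / K) ≤
    F.S.val (tubes (F.m (2 * c - d)) (F.lst c d)) (F.cut W kk c c' d) (F.ball c)

/-- upper bound for the excess of the pieces -/
def StExc (A : ℝ) : Prop := AllA fun {K} F _ _ _ e _ _ _ => ∀ c d, 1 ≤ c → c ≤ d → d ≤ 2 * c →
  d ≤ K → F.S.exc (tubes (F.m (2 * c - d)) (F.lst c d)) (F.ball c) ≤ e c + A * (((d:ℝ) - c) / K) + A / K

/-- Lipschitz bound for the excess -/
def StLip (A : ℝ) : Prop := AllA fun {K} _ _ _ _ e _ _ _ => ∀ i j, i ≤ j → j ≤ K →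
  e i ≤ e j + A * (((j:ℝ) - i) / K) + A / K

/-- numbers -/
theorem e8_num {A κ c1 ec ec' T r : ℝ} (hA : 1 ≤ A) (hc1 : 0 < c1) (hκ : κ = 1 / (40 * A ^ 2))
    (hT0 : 0 ≤ T) (hT : T ≤ κ * c1) (hr0 : 0 ≤ r) (hr : 100 * A * r ≤ c1) (h1 : c1 ≤ ec')
    (hl : ec ≤ ec' + A * T + A * r) :
    3 / 5 * c1 < (ec - A * r - A * T - A * (κ * ec)) + (ec' - A * r - A * T - A * (κ * ec')) -
      (ec + A * T + A * r) := by
  have hA0 : 0 < A := by linarith
  have hκ0 : 0 < κ := by rw [hκ]; positivity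
  have k1 : A * κ ≤ 1 / 40 := by
    rw [hκ]
    have : A * (1 / (40 * A ^ 2)) = 1 / (40 * A) := by field_simp
    rw [this]
    exact one_div_le_one_div_of_le (by norm_num) (by linarith)
  have k2 : A * (A * κ) = 1 / 40 := by
    rw [hκ]
    field_simp
  have hAT : A * T ≤ c1 / 40 := by
    calc A * T ≤ A * (κ * c1) := mul_le_mul_of_nonneg_left hT hA0.le
      _ = (A * κ) * c1 := by ring
      _ ≤ 1 / 40 * c1 := mul_le_mul_of_nonneg_right k1 hc1.le
      _ = c1 / 40 := by ring
  have hAr : A * r ≤ c1 / 100 := by linarith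
  have e1 : A * (κ * ec) ≤ A * κ * ec' + A * κ * (A * T + A * r) := by
    have : A * (κ * ec) = A * κ * ec := by ring
    rw [this]
    have h2 := mul_le_mul_of_nonneg_left hl (mul_nonneg hA0.le hκ0.le)
    linarith [h2, mul_add (A * κ) ec' (A * T + A * r)]
  have e2 : A * κ * (A * T + A * r) ≤ 1 / 40 * (c1 / 40 + c1 / 100) := by
    refine mul_le_mul k1 (by linarith) ?_ (by norm_num)
    positivity
  have e3 : A * κ * ec' ≤ 1 / 40 * ec' := mul_le_mul_of_nonneg_right k1 (by linarith)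
  have e4 : A * (κ * ec') = A * κ * ec' := by ring
  rw [e4]
  nlinarith

theorem e8_of {A : ℝ} (hA : 1 ≤ A) (hL : StLst) (hC : StCut A) (hX : StExc A) (hP : StLip A) :
    E8 (1 / (40 * A ^ 2)) (100 * A) := by
  intro K F J θ H e W kk jj hK hR c1 c c' d hc1 hc hcc hcd hd hdK hT hC1 ht ht'
  have hKp : (0:ℝ) < K := by exact_mod_cast hK
  have hcd' : c ≤ d := hcc.trans hcd
  have hcdR : (c:ℝ) ≤ d := by exact_mod_cast hcd'
  have hccR : (c:ℝ) ≤ c' := by exact_mod_cast hcc
  have hcdR' : (c':ℝ) ≤ d := by exact_mod_cast hcd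
  set κ : ℝ := 1 / (40 * A ^ 2) with hκ
  have hA0 : 0 < A := by linarith
  have hn : F.S.Bd (F.m (2 * c - d)) := by
    refine ⟨((2 * c - d : ℕ) : ℝ), Eventually.of_forall fun i => ?_⟩
    show (((2 * c - d) * F.n i : ℕ) : ℝ) ≤ ((2 * c - d : ℕ) : ℝ) * F.S.L i
    rw [F.L_eq i]
    push_cast
    refine mul_le_mul_of_nonneg_left ?_ (Nat.cast_nonneg _)
    have : (1:ℝ) ≤ K := by exact_mod_cast hK
    nlinarith [(Nat.cast_nonneg (F.n i) : (0:ℝ) ≤ F.n i)]
  obtain ⟨hl, h1⟩ := hL F J θ H e W kk jj hK hR c c d hc le_rfl hcd' hd hdK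
  obtain ⟨-, h2⟩ := hL F J θ H e W kk jj hK hR c c' d hc hcc hcd hd hdK
  set T : ℝ := ((d:ℝ) - c) / K with hTdef
  have hT0 : 0 ≤ T := div_nonneg (by linarith) hKp.le
  set r : ℝ := 1 / K with hr
  have hr0 : 0 ≤ r := by positivity
  have hAr : ∀ x : ℝ, x / K = x * r := fun x => by rw [hr]; ring
  have hr1 : 100 * A * r ≤ c1 := by rw [← hAr]; exact hC1
  have hlip : e c ≤ e c' + A * T + A * r := by
    have h3 := hP F J θ H e W kk jj hK hR c c' hcc (hcd.trans hdK)
    rw [hAr A] at h3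
    have h4 : ((c':ℝ) - c) / K ≤ T := div_le_div_of_nonneg_right (by linarith) hKp.le
    have h5 := mul_le_mul_of_nonneg_left h4 hA0.le
    linarith
  have hnum := e8_num hA hc1 hκ hT0 hT hr0 hr1 ht'.1 hlip
  -- the frame lemma
  have key := frame' (S := F.S) (n := F.m (2 * c - d)) hn (l := F.lst c d) hl (F.ball c)
    (U₁ := F.cut W kk c c d) (U₂ := F.cut W kk c c' d) h1 h2
    (k₁ := fun i => min (kk c i - 2 * (c - c) * F.n i) (F.m (2 * c - d) i))
    (k₂ := fun i => min (kk c' i - 2 * (c' - c) * F.n i) (F.m (2 * c - d) i))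
    (Eventually.of_forall fun _ _ _ => rfl) (Eventually.of_forall fun _ _ _ => rfl)
    (v₁ := e c - A * r - A * T - A * (κ * e c)) (v₂ := e c' - A * r - A * T - A * (κ * e c'))
    (x := e c + A * T + A * r) (g := 3 / 5 * c1) hnum ?_ ?_ ?_
  · obtain ⟨φ, hφ, r1, r2⟩ := key
    classical
    -- `φ` is a function of the piece
    have hφ' : ∀ i ω ω', F.sig c d i ω = F.sig c d i ω' → φ i ω = φ i ω' := by
      intro i ω ω' hs
      refine hφ i ω ω' ?_ ?_
      · have e1 : F.lst c d i ω = F.lst c d i ω' := by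
          unfold Flg.lst
          rw [hs]
        show tb _ (F.lst c d i ω) = tb _ (F.lst c d i ω')
        rw [e1]
      · have hT' : (F.sig c d i ω).T = (F.sig c d i ω').T := by rw [hs]
        have ho : (F.sig c d i ω).o = (F.sig c d i ω').o := by rw [hs]
        refine Prod.ext hT' ?_
        funext k
        have e2 := congrFun ho k
        show (F.N c i ω).o k / 2 ^ (c * F.n i) = (F.N c i ω').o k / 2 ^ (c * F.n i)
        have e3 : c * F.n i = (d - c) * F.n i + (2 * c - d) * F.n i := by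
          rw [← add_mul]
          congr 1
          omega
        have e2' : (F.N c i ω).o k / 2 ^ ((d - c) * F.n i) = (F.N c i ω').o k / 2 ^ ((d - c) * F.n i) := e2
        rw [e3, pow_add, ← Int.ediv_ediv_of_nonneg (by positivity), ← Int.ediv_ediv_of_nonneg (by positivity), e2']
    refine ⟨fun i σ => if h : ∃ ω, F.sig c d i ω = σ then φ i h.choose else 0, ?_, ?_⟩
    all_goals
      have hψ : ∀ i ω, (if h : ∃ ω', F.sig c d i ω' = F.sig c d i ω then φ i h.choose else 0) = φ i ω := by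
        intro i ω
        rw [dif_pos ⟨ω, rfl⟩]
        exact hφ' i _ _ (Exists.choose_spec (⟨ω, rfl⟩ : ∃ ω', F.sig c d i ω' = F.sig c d i ω))
    · obtain ⟨η, hη, hr⟩ := r1
      refine ⟨η, hη, ?_⟩
      have hLt : ∀ᶠ i in (uf : Filter ℕ), 2 / (c1 / 10) ≤ F.S.L i :=
        (tendsto_natCast_atTop_atTop.comp F.S.Ltop).eventually_ge_atTop _
      filter_upwards [hr, hLt] with i hi hLi
      refine le_trans ?_ hi
      rw [prb_eq, prb_eq]
      refine prE_mono' _ fun ω hω hbad => ?_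
      simp only [hψ] at hbad
      refine lt_of_le_of_lt ?_ hbad
      have h4 : (4:ℝ) = (2:ℝ) ^ (2:ℝ) := by norm_num
      rw [h4, ← Real.rpow_add (by norm_num)]
      refine Real.rpow_le_rpow_of_exponent_le (by norm_num) ?_
      rw [div_le_iff₀ (by positivity)] at hLi
      nlinarith
    · obtain ⟨η, hη, hr⟩ := r2
      refine ⟨η, hη, ?_⟩
      have hLt : ∀ᶠ i in (uf : Filter ℕ), 2 / (c1 / 10) ≤ F.S.L i :=
        (tendsto_natCast_atTop_atTop.comp F.S.Ltop).eventually_ge_atTop _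
      filter_upwards [hr, hLt] with i hi hLi
      refine le_trans ?_ hi
      rw [prb_eq, prb_eq]
      refine prE_mono' _ fun ω hω hbad => ?_
      simp only [hψ] at hbad
      refine lt_of_le_of_lt ?_ hbad
      have h4 : (4:ℝ) = (2:ℝ) ^ (2:ℝ) := by norm_num
      rw [h4, ← Real.rpow_add (by norm_num)]
      refine Real.rpow_le_rpow_of_exponent_le (by norm_num) ?_
      rw [div_le_iff₀ (by positivity)] at hLi
      nlinarith
  · intro S' dd hs
    have h3 := hC (F.res dd hs) J θ H e (fun c => dd.pullB (W c)) kk jj hK (hR.res dd hs) c c d hc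
      le_rfl hcd' hd hdK
    rw [nα_res, hAr A] at h3
    have h4 : A * (nα F jj c - (c:ℝ) / K) ≤ A * (κ * e c) := mul_le_mul_of_nonneg_left ht.2 hA0.le
    refine le_trans ?_ h3
    linarith
  · intro S' dd hs
    have h3 := hC (F.res dd hs) J θ H e (fun c => dd.pullB (W c)) kk jj hK (hR.res dd hs) c c' d hc
      hcc hcd hd hdK
    rw [nα_res, hAr A] at h3
    have h4 : A * (nα F jj c' - (c':ℝ) / K) ≤ A * (κ * e c') := mul_le_mul_of_nonneg_left ht'.2 hA0.le
    refine le_trans ?_ h3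
    linarith
  · intro S' dd hs
    have h3 := hX (F.res dd hs) J θ H e (fun c => dd.pullB (W c)) kk jj hK (hR.res dd hs) c d hc
      hcd' hd hdK
    rw [hAr A] at h3
    exact h3

end Vale.Agent.P122.H380
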