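import Vale.Agent.P122.H380.E8
import Vale.Agent.P122.H655.E3
import Vale.Agent.P122.H563.Prof
import Vale.Agent.P122.H683.Low

/-!
# P122 / E8 : the line `lst` is normalised, the cut planks are boxes around it (helper380)
-/

set_option autoImplicit false

namespace Vale.Agent.P122.H380

open Filter Topology Vale.Agent.P127 Vale.Agent.P127.Stk Vale.Agent.P127.U Vale.Agent.P127.U.Sys
  Vale.Agent.P122.C2 Vale.Agent.P122.E

/-- a coarser cap -/
theorem cap_div {n a b : ℕ} {τ : Z2} (h : Cap n (a + b) τ) : Cap n b (fun k => τ k / 2 ^ (a * n)) := by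
  intro k
  obtain ⟨h1, h2⟩ := h k
  refine ⟨Int.ediv_nonneg h1 (by positivity), ?_⟩
  rw [Int.ediv_lt_iff_lt_mul (by positivity), ← pow_add, ← add_mul, add_comm b a]
  exact h2

theorem cap_sig {K : ℕ} (F : Flg K) {c d : ℕ} (hcd : c ≤ d) (hd : d ≤ 2 * c) (hdK : d ≤ K) (i : ℕ)
    {ω : F.S.Ω i} (hω : 0 < (F.S.P i).w ω) : Cap (F.n i) (2 * c - d) (F.sig c d i ω).τ := by
  have h1 := H655.cap_N F i hω c (by omega)
  have e : c = (d - c) + (2 * c - d) := by omega
  rw [e] at h1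
  have h2 := cap_div h1
  rw [← e] at h2
  exact h2

theorem lnA_lst {K : ℕ} (F : Flg K) {c d : ℕ} (hcd : c ≤ d) (hd : d ≤ 2 * c) (hdK : d ≤ K) :
    LnA (F.lst c d) := by
  refine Eventually.of_forall fun i ω hω => ⟨fun k => ?_, fun k => ?_⟩
  · show |Int.fract _| ≤ 1
    rw [abs_of_nonneg (Int.fract_nonneg _)]
    exact (Int.fract_lt_one _).le
  · exact (F.slp i).bd _ _ k (by omega) (cap_sig F hcd hd hdK i hω)

theorem stLst : StLst := by
  intro K F J θ H e W kk jj hK hR c c' d hc hcc hcd hd hdK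
  have hl := lnA_lst F (hcc.trans hcd) hd hdK
  refine ⟨hl, ⟨?_, ?_⟩, ?_, ?_⟩
  · filter_upwards [hl, hR.Wok c' (hcd.trans hdK)] with i h1 h2 ω hω
    exact ⟨h1 ω hω, (h2 ω hω).2.1, min_le_right _ _⟩
  · refine ⟨((2 * c - d : ℕ) : ℝ), Eventually.of_forall fun i ω _ => ?_⟩
    show (((2 * c - d) * F.n i : ℕ) : ℝ) ≤ ((2 * c - d : ℕ) : ℝ) * F.S.L i
    rw [F.L_eq i]
    push_cast
    refine mul_le_mul_of_nonneg_left ?_ (Nat.cast_nonneg _)
    have : (1:ℝ) ≤ K := by exact_mod_cast hK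
    nlinarith [(Nat.cast_nonneg (F.n i) : (0:ℝ) ≤ F.n i)]
  · exact Eventually.of_forall fun _ _ _ => rfl
  · exact Eventually.of_forall fun _ _ _ => rfl

theorem nα_ge {K : ℕ} {F : Flg K} {J θ H e : ℕ → ℝ} {W : ℕ → F.S.BX} {kk jj : ℕ → ℕ → ℕ} (hK : 1 ≤ K)
    (hR : RegA F J θ H e W kk jj) {c : ℕ} (hc : c ≤ K) : (c:ℝ) / K ≤ nα F jj c := by
  have g1 : ∀ᶠ n in (uf : Filter ℕ), jj c n ≤ c * F.n n := by
    filter_upwards [hR.Wok c hc] with n hn
    obtain ⟨ω, hω⟩ := H563.exists_supp (F.S.P n)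
    exact (hn ω hω).2.2.2.2.2
  have g2 := (H563.nu_le F hK c (jj c) g1).2
  unfold nα
  have g3 : (2 : ℝ) * c / K = (c : ℝ) / K + (c : ℝ) / K := by ring
  linarith

theorem StCut.mono {A B : ℝ} (h : A ≤ B) (hC : StCut A) : StCut B := by
  intro K F J θ H e W kk jj hK hR c c' d hc hcc hcd hd hdK
  have hKp : (0:ℝ) < K := by exact_mod_cast hK
  have h1 := hC F J θ H e W kk jj hK hR c c' d hc hcc hcd hd hdK
  have h2 := nα_ge hK hR (c := c') (by omega)
  have h3 : A / K ≤ B / K := div_le_div_of_nonneg_right h hKp.le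
  have hcd' : (c:ℝ) ≤ d := by exact_mod_cast (hcc.trans hcd)
  have h4 : A * (((d:ℝ) - c) / K) ≤ B * (((d:ℝ) - c) / K) :=
    mul_le_mul_of_nonneg_right h (div_nonneg (by linarith) hKp.le)
  have h5 : A * (nα F jj c' - (c':ℝ) / K) ≤ B * (nα F jj c' - (c':ℝ) / K) :=
    mul_le_mul_of_nonneg_right h (by linarith)
  linarith

theorem StExc.mono {A B : ℝ} (h : A ≤ B) (hC : StExc A) : StExc B := by
  intro K F J θ H e W kk jj hK hR c d hc hcd hd hdK
  have hKp : (0:ℝ) < K := by exact_mod_cast hK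
  have h1 := hC F J θ H e W kk jj hK hR c d hc hcd hd hdK
  have h3 : A / K ≤ B / K := div_le_div_of_nonneg_right h hKp.le
  have hcd' : (c:ℝ) ≤ d := by exact_mod_cast hcd
  have h4 : A * (((d:ℝ) - c) / K) ≤ B * (((d:ℝ) - c) / K) :=
    mul_le_mul_of_nonneg_right h (div_nonneg (by linarith) hKp.le)
  linarith

theorem StLip.mono {A B : ℝ} (h : A ≤ B) (hC : StLip A) : StLip B := by
  intro K F J θ H e W kk jj hK hR i j hij hj
  have hKp : (0:ℝ) < K := by exact_mod_cast hK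
  have h1 := hC F J θ H e W kk jj hK hR i j hij hj
  have h3 : A / K ≤ B / K := div_le_div_of_nonneg_right h hKp.le
  have hcd' : (i:ℝ) ≤ j := by exact_mod_cast hij
  have h4 : A * (((j:ℝ) - i) / K) ≤ B * (((j:ℝ) - i) / K) :=
    mul_le_mul_of_nonneg_right h (div_nonneg (by linarith) hKp.le)
  linarith

theorem stLip_of {A : ℝ} (h5 : E5 A) : StLip A := by
  intro K F J θ H e W kk jj hK hR i j hij hj
  have h1 := (h5 F J θ H e W kk jj hK hR).1 i j (hij.trans hj) hj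
  have hij' : (i:ℝ) ≤ j := by exact_mod_cast hij
  rw [abs_sub_comm (i:ℝ) j, abs_of_nonneg (by linarith : (0:ℝ) ≤ (j:ℝ) - i)] at h1
  have h2 := le_abs_self (e i - e j)
  have h3 : A * ((j:ℝ) - i) / K = A * (((j:ℝ) - i) / K) := by ring
  linarith

theorem stExc : StExc 2 := by
  intro K F J θ H e W kk jj hK hR c d hc hcd hd hdK
  have hKp : (0:ℝ) < K := by exact_mod_cast hK
  have h1 := H683.exc_lst_reg F hK hR hcd hd (hcd.trans hdK)
  have h2 : (0:ℝ) ≤ 2 / K := by positivity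
  have h3 : 2 * ((d:ℝ) - c) / K = 2 * (((d:ℝ) - c) / K) := by ring
  linarith

/-- **E8** from the lower bound for the cut planks, the excess of the pieces and E5 -/
theorem e8_of' {A C : ℝ} (hC : StCut A) (h5 : E5 C) : ∃ κ : ℝ, 0 < κ ∧ ∃ C₀ : ℝ, E8 κ C₀ := by
  set D : ℝ := max 1 (max A (max 2 C)) with hD
  have h1 : 1 ≤ D := le_max_left _ _
  have h2 : A ≤ D := (le_max_left _ _).trans (le_max_right _ _)
  have h3 : 2 ≤ D := ((le_max_left _ _).trans (le_max_right _ _)).trans (le_max_right _ _)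
  have h4 : C ≤ D := ((le_max_right _ _).trans (le_max_right _ _)).trans (le_max_right _ _)
  exact ⟨1 / (40 * D ^ 2), by positivity, 100 * D, e8_of h1 stLst (StCut.mono h2 hC) (StExc.mono h3 stExc)
    (StLip.mono h4 (stLip_of h5))⟩

end Vale.Agent.P122.H380
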