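import Vale.Agent.P122.H380.Lst
import Vale.Agent.P122.H823.Cut
import Vale.Agent.P122.H535.E5

/-! # P122 / E8, final (helper380) -/

set_option autoImplicit false

namespace Vale.Agent.P122.H380

open Vale.Agent.P122.E

/-- **E8** frames -/
theorem stE8 : ∃ κ : ℝ, 0 < κ ∧ ∃ C₀ : ℝ, E8 κ C₀ := e8_of' H823.stCut e5

end Vale.Agent.P122.H380
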