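import Vale.Agent.P127.Stk.LibDom

/-!
# P122 / pairs of conditionally independent copies, finite part (helper380)

* `cp P W` : law of two conditionally independent copies given `W`
* `mi_cp` : under a law dominated by `K * cp P W` the mutual information of the copies given `W`
  is at most `log K`
* `select` : averaging: a relation which is rarely violated by two copies is rarely violated by
  one copy and a value selected as a function of `W`
-/

set_option autoImplicit false

namespace Vale.Agent.P122.H380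

open Finset Vale.Agent.P127 Vale.Agent.P127.Stk

section finite

variable {Ω Ω' : Type} [Fintype Ω] [Fintype Ω'] {S T U : Type*}

open Classical in
/-- weight of a pair of conditionally independent copies given `W` -/
noncomputable def cpw (P : Law Ω) (W : Ω → S) (w : Ω × Ω) : ℝ :=
  if W w.1 = W w.2 then P.w w.1 * P.w w.2 / P.pr W (W w.1) else 0

theorem cpw_nonneg (P : Law Ω) (W : Ω → S) (w : Ω × Ω) : 0 ≤ cpw P W w := by
  unfold cpw
  split_ifs
  · exact div_nonneg (mul_nonneg (P.nn _) (P.nn _)) (P.pr_nonneg _ _)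
  · exact le_rfl

theorem cpw_symm (P : Law Ω) (W : Ω → S) (a b : Ω) : cpw P W (a, b) = cpw P W (b, a) := by
  unfold cpw
  by_cases h : W a = W b
  · rw [if_pos h, if_pos h.symm, h, mul_comm]
  · rw [if_neg h, if_neg (fun h' => h h'.symm)]

theorem cpw_fst (P : Law Ω) (W : Ω → S) (ω : Ω) : ∑ ω', cpw P W (ω, ω') = P.w ω := by
  classical
  have h1 : ∑ ω', cpw P W (ω, ω') = P.w ω / P.pr W (W ω) * P.pr W (W ω) := by
    conv_rhs => rw [Law.pr, Finset.mul_sum, Finset.sum_filter]
    refine Finset.sum_congr rfl fun ω' _ => ?_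
    unfold cpw
    by_cases h : W ω = W ω'
    · rw [if_pos h, if_pos h.symm]
      unfold Law.pr
      ring
    · rw [if_neg h, if_neg (fun h' => h h'.symm)]
  rw [h1]
  rcases (P.pr_nonneg W (W ω)).eq_or_lt with h0 | h0
  · have := P.w_le_pr W ω
    rw [← h0] at this ⊢
    have h2 : P.w ω = 0 := le_antisymm this (P.nn ω)
    rw [h2]
    simp
  · exact div_mul_cancel₀ _ h0.ne'

/-- two conditionally independent copies given `W` -/
noncomputable def cp (P : Law Ω) (W : Ω → S) : Law (Ω × Ω) where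
  w := cpw P W
  nn := cpw_nonneg P W
  sum_one := by
    rw [Fintype.sum_prod_type]
    simp only [cpw_fst]
    exact P.sum_one

theorem cp_w (P : Law Ω) (W : Ω → S) (w : Ω × Ω) : (cp P W).w w = cpw P W w := rfl

theorem cp_ex (P : Law Ω) (W : Ω → S) (f : Ω × Ω → ℝ) :
    (cp P W).ex f = ∑ a, ∑ b, cpw P W (a, b) * f (a, b) := by
  unfold Law.ex
  rw [Fintype.sum_prod_type]
  rfl

theorem cp_fst (P : Law Ω) (W : Ω → S) (ω : Ω) : (cp P W).pr Prod.fst ω = P.w ω := by
  classical
  rw [Law.pr_eq_ex, cp_ex, Finset.sum_eq_single ω]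
  · rw [← cpw_fst P W ω]
    refine Finset.sum_congr rfl fun b _ => ?_
    rw [Law.ind_of rfl, mul_one]
  · intro a _ ha
    refine Finset.sum_eq_zero fun b _ => ?_
    rw [Law.ind_not (p := (a, b).1 = ω) ha, mul_zero]
  · intro h
    exact absurd (Finset.mem_univ _) h

theorem cp_snd (P : Law Ω) (W : Ω → S) (ω : Ω) : (cp P W).pr Prod.snd ω = P.w ω := by
  classical
  rw [Law.pr_eq_ex, cp_ex, Finset.sum_comm, Finset.sum_eq_single ω]
  · rw [← cpw_fst P W ω]
    refine Finset.sum_congr rfl fun b _ => ?_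
    rw [Law.ind_of rfl, mul_one, cpw_symm]
  · intro a _ ha
    refine Finset.sum_eq_zero fun b _ => ?_
    rw [Law.ind_not (p := (b, a).2 = ω) ha, mul_zero]
  · intro h
    exact absurd (Finset.mem_univ _) h

theorem cp_supp {P : Law Ω} {W : Ω → S} {w : Ω × Ω} (h : 0 < (cp P W).w w) :
    W w.1 = W w.2 ∧ 0 < P.w w.1 ∧ 0 < P.w w.2 := by
  rw [cp_w] at h
  unfold cpw at h
  split_ifs at h with h1
  · refine ⟨h1, ?_, ?_⟩
    · rcases (P.nn w.1).eq_or_lt with h0 | h0
      · rw [← h0, zero_mul, zero_div] at h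
        exact absurd h (lt_irrefl _)
      · exact h0
    · rcases (P.nn w.2).eq_or_lt with h0 | h0
      · rw [← h0, mul_zero, zero_div] at h
        exact absurd h (lt_irrefl _)
      · exact h0
  · exact absurd h (lt_irrefl _)

/-- the copies are almost independent under a dominated law -/
theorem mi_cp {P : Law Ω} {W : Ω → S} {Q : Law Ω'} {π : Ω' → Ω × Ω} {K : ℝ}
    (h : Dom Q π (cp P W) K) :
    mi Q (fun a => (π a).1) (fun a => (π a).2) (fun a => W (π a).1) ≤ Real.log K := by
  classical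
  have hK := h.one_le
  have hK0 : 0 < K := by linarith
  have hs : ∀ a, 0 < Q.w a → W (π a).1 = W (π a).2 ∧ 0 < P.w (π a).1 ∧ 0 < P.w (π a).2 :=
    fun a ha => cp_supp (h.pos ha)
  -- (1) `H(ω₀ | W) ≤ E -log P(ω₀ | W)`
  have h1 : hc Q (fun a => (π a).1) (fun a => W (π a).1) ≤
      Q.ex (fun a => - Real.log (P.w (π a).1 / P.pr W (W (π a).1))) := by
    have hg := Q.gibbs_cond (fun a => (π a).1) (fun a => W (π a).1)
      (fun x y => if W x = y then P.w x / P.pr W y else 0)
      (fun x y => by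
        split_ifs
        · exact div_nonneg (P.nn _) (P.pr_nonneg _ _)
        · exact le_rfl) ?_ (fun a ha => by
        rw [if_pos rfl]
        exact div_pos (hs a ha).2.1 (P.pr_pos W (hs a ha).2.1))
    · refine le_trans (hg : hc Q _ _ ≤ _) (Q.ex_mono fun a _ => ?_)
      rw [if_pos rfl]
    · intro y F
      rw [← Finset.sum_filter, ← Finset.sum_div]
      have h2 : ∑ x ∈ F with W x = y, P.w x ≤ P.pr W y := by
        unfold Law.pr
        refine Finset.sum_le_sum_of_subset_of_nonneg ?_ fun _ _ _ => P.nn _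
        intro x hx
        rw [Finset.mem_filter] at hx ⊢
        exact ⟨Finset.mem_univ _, hx.2⟩
      exact div_le_one_of_le₀ h2 (P.pr_nonneg _ _)
  -- (2) `H(ω₁) ≤ E -log P(ω₁)`
  have h2 : Q.H (fun a => (π a).2) ≤ Q.ex (fun a => - Real.log (P.w (π a).2)) := by
    refine Q.gibbs _ P.w P.nn ?_ (fun a ha => (hs a ha).2.2)
    rw [← P.sum_one]
    exact Finset.sum_le_sum_of_subset_of_nonneg (Finset.subset_univ _) fun _ _ _ => P.nn _
  -- (3) `H(ω₀, ω₁) ≥ E -log Q(ω₀, ω₁) - log K`
  have h3 : Q.ex (fun a => - Real.log (cpw P W (π a))) - Real.log K ≤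
      Q.H (fun a => ((π a).1, (π a).2)) := by
    unfold Law.H
    rw [← Q.ex_const (Real.log K), ← Q.ex_sub]
    refine Q.ex_mono fun a ha => ?_
    have e : Q.pr (fun a => ((π a).1, (π a).2)) ((π a).1, (π a).2) = Q.pr π (π a) := rfl
    have h4 := h (π a)
    have h5 := Q.pr_pos π ha
    have h6 : 0 < cpw P W (π a) := h.pos ha
    simp only [e]
    rw [cp_w] at h4
    have h7 : Real.log (Q.pr π (π a)) ≤ Real.log K + Real.log (cpw P W (π a)) := by
      rw [← Real.log_mul hK0.ne' h6.ne']
      exact Real.log_le_log h5 h4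
    linarith
  -- (4) the weight of the pair
  have h4 : Q.ex (fun a => - Real.log (cpw P W (π a))) =
      Q.ex (fun a => - Real.log (P.w (π a).1 / P.pr W (W (π a).1))) +
        Q.ex (fun a => - Real.log (P.w (π a).2)) := by
    rw [← Q.ex_add]
    refine Q.ex_congr fun a ha => ?_
    obtain ⟨s1, s2, s3⟩ := hs a ha
    have s4 := P.pr_pos W s2
    have e : cpw P W (π a) = P.w (π a).1 / P.pr W (W (π a).1) * P.w (π a).2 := by
      unfold cpw
      rw [if_pos s1]
      ring
    rw [e, Real.log_mul (div_pos s2 s4).ne' s3.ne']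
    ring
  -- (5) conclusion
  have h5 : hc Q (fun a => (π a).1) (fun a => ((π a).2, W (π a).1)) =
      Q.H (fun a => ((π a).1, (π a).2)) - Q.H (fun a => (π a).2) := by
    have e1 : Q.H (fun a => ((π a).1, ((π a).2, W (π a).1))) = Q.H (fun a => ((π a).1, (π a).2)) := by
      refine Stk.H_congr' Q ?_ ?_
      · intro a a' _ _ e
        simp only [Prod.mk.injEq] at e ⊢
        exact ⟨e.1, e.2.1⟩
      · intro a a' _ _ e
        simp only [Prod.mk.injEq] at e ⊢
        exact ⟨e.1, e.2, by rw [e.1]⟩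
    have e2 : Q.H (fun a => ((π a).2, W (π a).1)) = Q.H (fun a => (π a).2) := by
      refine Stk.H_congr' Q ?_ ?_
      · intro a a' _ _ e
        simp only [Prod.mk.injEq] at e
        exact e.1
      · intro a a' p p' e
        simp only [Prod.mk.injEq]
        refine ⟨e, ?_⟩
        have e' : (π a).2 = (π a').2 := e
        rw [(hs a p).1, (hs a' p').1, e']
    show Q.H (fun a => ((π a).1, ((π a).2, W (π a).1))) - Q.H (fun a => ((π a).2, W (π a).1)) = _
    rw [e1, e2]
  unfold mi
  rw [h5]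
  linarith

/-- a relation between two copies -/
theorem cp_prE (P : Law Ω) (W : Ω → S) (R : Ω → Ω → Prop) :
    prE (cp P W) (fun w => R w.1 w.2) = ∑ a, ∑ b, cpw P W (a, b) * Law.ind (R a b) := by
  classical
  unfold prE
  rw [Finset.sum_filter, Fintype.sum_prod_type]
  refine Finset.sum_congr rfl fun a _ => Finset.sum_congr rfl fun b _ => ?_
  by_cases h : R a b
  · rw [if_pos h, Law.ind_of h, mul_one]
    rfl
  · rw [if_neg h, Law.ind_not h, mul_zero]

theorem prE_ind (P : Law Ω) (E : Ω → Prop) : prE P E = ∑ a, P.w a * Law.ind (E a) := by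
  classical
  unfold prE
  rw [Finset.sum_filter]
  refine Finset.sum_congr rfl fun a _ => ?_
  by_cases h : E a
  · rw [if_pos h, Law.ind_of h, mul_one]
  · rw [if_neg h, Law.ind_not h, mul_zero]

theorem ind_nonneg (p : Prop) : 0 ≤ Law.ind p := by
  classical
  unfold Law.ind
  split_ifs <;> norm_num

/-- **averaging** : a selection of outcomes as a function of `W` -/
theorem select (P : Law Ω) (W : Ω → S) (R : Ω → Ω → Prop) :
    ∃ s : Ω → Ω, (∀ ω, W (s ω) = W ω) ∧ (∀ ω ω', W ω = W ω' → s ω = s ω') ∧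
      prE P (fun ω => R (s ω) ω) ≤ prE (cp P W) (fun w => R w.1 w.2) := by
  classical
  -- the mass of the bad outcomes in the fibre of `a`
  set β : Ω → ℝ := fun a => ∑ b, (if W b = W a then P.w b * Law.ind (R a b) else 0) with hβ
  have hfib : ∀ ω : Ω, ∃ a, W a = W ω ∧ ∀ b, W b = W ω → β a ≤ β b := by
    intro ω
    obtain ⟨a, ha, hmin⟩ := Finset.exists_min_image (univ.filter fun a => W a = W ω) β
      ⟨ω, by simp⟩
    rw [Finset.mem_filter] at ha
    exact ⟨a, ha.2, fun b hb => hmin b (by simp [hb])⟩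
  -- a representative of every fibre
  set rep : Ω → Ω := fun ω => (⟨ω, rfl⟩ : ∃ a, W a = W ω).choose with hrep
  have hrep1 : ∀ ω, W (rep ω) = W ω := fun ω => (⟨ω, rfl⟩ : ∃ a, W a = W ω).choose_spec
  have hrep2 : ∀ ω ω', W ω = W ω' → rep ω = rep ω' := by
    intro ω ω' h
    simp only [hrep]
    congr 1
    funext a
    rw [h]
  choose t ht1 ht2 using hfib
  refine ⟨fun ω => t (rep ω), fun ω => (ht1 _).trans (hrep1 ω),
    fun ω ω' h => congrArg t (hrep2 ω ω' h), ?_⟩
  set s : Ω → Ω := fun ω => t (rep ω) with hs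
  have hs1 : ∀ ω, W (s ω) = W ω := fun ω => (ht1 _).trans (hrep1 ω)
  have hs2 : ∀ ω ω', W ω = W ω' → s ω = s ω' := fun ω ω' h => by
    simp only [hs]
    rw [hrep2 ω ω' h]
  have hs3 : ∀ ω b, W b = W ω → β (s ω) ≤ β b := fun ω b hb =>
    ht2 (rep ω) b (hb.trans (hrep1 ω).symm)
  rw [cp_prE, prE_ind]
  -- right side
  have r1 : ∀ a, ∑ b, cpw P W (a, b) * Law.ind (R a b) = P.w a / P.pr W (W a) * β a := by
    intro a
    simp only [hβ]
    rw [Finset.mul_sum]
    refine Finset.sum_congr rfl fun b _ => ?_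
    unfold cpw
    by_cases h : W a = W b
    · rw [if_pos h, if_pos h.symm]
      ring
    · rw [if_neg h, if_neg (fun h' => h h'.symm)]
      ring
  -- left side: spread over the fibre
  have l1 : ∑ b, P.w b * Law.ind (R (s b) b) =
      ∑ b, ∑ a, cpw P W (a, b) * Law.ind (R (s b) b) := by
    refine Finset.sum_congr rfl fun b _ => ?_
    rw [← Finset.sum_mul]
    congr 1
    rw [← cpw_fst P W b]
    exact Finset.sum_congr rfl fun a _ => cpw_symm P W b a
  rw [l1, Finset.sum_comm]
  refine Finset.sum_le_sum fun a _ => ?_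
  rw [r1 a]
  have l2 : ∑ b, cpw P W (a, b) * Law.ind (R (s b) b) = P.w a / P.pr W (W a) * β (s a) := by
    simp only [hβ]
    rw [Finset.mul_sum]
    refine Finset.sum_congr rfl fun b _ => ?_
    unfold cpw
    by_cases h : W a = W b
    · have e : s b = s a := hs2 b a h.symm
      rw [if_pos h, if_pos (h.symm.trans (hs1 a).symm)]
      simp only [e]
      ring
    · rw [if_neg h, if_neg (fun h' => h ((h'.trans (hs1 a)).symm))]
      ring
  rw [l2]
  exact mul_le_mul_of_nonneg_left (hs3 a a rfl) (div_nonneg (P.nn _) (P.pr_nonneg _ _))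

end finite

end Vale.Agent.P122.H380
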