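import Vale.Agent.P122.H380.Ux2
import Vale.Agent.P122.H380.FrameF
import Vale.Agent.P122.E.Defs

/-!
# P122 / dense systems, copies, the symmetric uncrossing (helper380)
-/

set_option autoImplicit false

namespace Vale.Agent.P122.H380

open Filter Topology Vale.Agent.P127 Vale.Agent.P127.Stk Vale.Agent.P127.U Vale.Agent.P127.U.Sys

/-! ### probabilities of events -/

section finite

variable {Ω : Type} [Fintype Ω] {S T : Type*}

theorem ind_le_of {p q : Prop} (h : p → q) : Law.ind p ≤ Law.ind q := by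
  by_cases hp : p
  · rw [Law.ind_of hp, Law.ind_of (h hp)]
  · rw [Law.ind_not hp]
    exact ind_nonneg q

theorem prE_mono' (P : Law Ω) {E F : Ω → Prop} (h : ∀ ω, 0 < P.w ω → E ω → F ω) :
    prE P E ≤ prE P F := by
  rw [prE_ind, prE_ind]
  refine Finset.sum_le_sum fun ω _ => ?_
  rcases (P.nn ω).eq_or_lt with h0 | h0
  · rw [← h0, zero_mul, zero_mul]
  · exact mul_le_mul_of_nonneg_left (ind_le_of (h ω h0)) h0.le

theorem prE_or_le (P : Law Ω) (E F : Ω → Prop) :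
    prE P (fun ω => E ω ∨ F ω) ≤ prE P E + prE P F := by
  rw [prE_ind, prE_ind, prE_ind, ← Finset.sum_add_distrib]
  refine Finset.sum_le_sum fun ω _ => ?_
  rw [← mul_add]
  refine mul_le_mul_of_nonneg_left ?_ (P.nn ω)
  by_cases hE : E ω
  · rw [Law.ind_of (Or.inl hE), Law.ind_of hE]
    have := ind_nonneg (F ω)
    linarith
  · by_cases hF : F ω
    · rw [Law.ind_of (Or.inr hF), Law.ind_of hF]
      have := ind_nonneg (E ω)
      linarith
    · rw [Law.ind_not (by tauto)]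
      have := ind_nonneg (E ω)
      have := ind_nonneg (F ω)
      linarith

theorem prE_cp_fst (P : Law Ω) (W : Ω → S) (E : Ω → Prop) :
    prE (cp P W) (fun w => E w.1) = prE P E := by
  rw [cp_prE P W (fun a _ => E a), prE_ind]
  refine Finset.sum_congr rfl fun a _ => ?_
  rw [← Finset.sum_mul, cpw_fst]

theorem prE_cp_snd (P : Law Ω) (W : Ω → S) (E : Ω → Prop) :
    prE (cp P W) (fun w => E w.2) = prE P E := by
  rw [cp_prE P W (fun _ b => E b), prE_ind, Finset.sum_comm]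
  refine Finset.sum_congr rfl fun a _ => ?_
  rw [← Finset.sum_mul]
  congr 1
  rw [← cpw_fst P W a]
  exact Finset.sum_congr rfl fun b _ => cpw_symm P W b a

end finite

/-! ### dense systems -/

section dense

variable {S'' S' S : Sys} {α : Type*}

/-- composition with an extension -/
def dExt (d : E.Dns S'' S') (e : Ext S' S) : E.Dns S'' S where
  π := fun i ω => e.π i (d.π i ω)
  L_eq := d.L_eq.trans e.L_eq
  dom := by
    intro ε hε
    filter_upwards [d.dom ε hε] with i hi ω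
    have h1 : (S''.P i).pr (fun ω => e.π i (d.π i ω)) ω =
        (Stk.push (S''.P i) (d.π i)).pr (e.π i) ω := (Stk.push_pr (S''.P i) (d.π i) (e.π i) ω).symm
    rw [e.L_eq] at hi
    rw [h1, ← e.law i ω]
    unfold Law.pr
    rw [Finset.mul_sum]
    exact Finset.sum_le_sum fun ω' _ => hi ω'

theorem dns_pos (d : E.Dns S' S) : ∀ᶠ i in (uf : Filter ℕ), ∀ ω, 0 < (S'.P i).w ω →
    0 < (S.P i).w (d.π i ω) := by
  filter_upwards [d.dom 1 one_pos] with i hi ω hω
  exact Stk.Dom.pos (hi : Stk.Dom (S'.P i) (d.π i) (S.P i) _) hω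

theorem dns_ae (d : E.Dns S' S) {p : ∀ i, S.Ω i → Prop} (h : S.Ae p) :
    S'.Ae fun i ω => p i (d.π i ω) := by
  filter_upwards [h, dns_pos d] with i h1 h2 ω hω
  exact h1 _ (h2 ω hω)

theorem dns_bxA (d : E.Dns S' S) {B : S.BX} (h : BxA B) : BxA (d.pullB B) := by
  obtain ⟨h1, c, hc⟩ := h
  refine ⟨dns_ae d h1, c, ?_⟩
  have := dns_ae d hc
  filter_upwards [this] with i hi ω hω
  rw [d.L_eq]
  exact hi ω hω

theorem dns_bd (d : E.Dns S' S) {n : ℕ → ℕ} (h : S.Bd n) : S'.Bd n := by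
  obtain ⟨c, hc⟩ := h
  refine ⟨c, ?_⟩
  rw [d.L_eq]
  exact hc

theorem dns_nm (d : E.Dns S' S) : S'.nm = S.nm := by
  funext i
  unfold Sys.nm
  rw [d.L_eq]

end dense

theorem prb_eq (S : Sys) (A : ∀ i, S.Ω i → Prop) (i : ℕ) : E.prb S A i = prE (S.P i) (A i) := by
  classical
  rw [prE_ind]
  unfold E.prb Law.ex Law.ind
  rfl

/-- conditioning on an event -/
noncomputable def onS (S : Sys) (A : ∀ i, S.Ω i → Prop) : Sys :=
  ⟨S.Ω, S.fin, fun i => Stk.on (S.P i) (A i), S.L, S.Ltop⟩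

/-- the law conditioned on an event of probability `2^-o(L)` is dense -/
noncomputable def onDns (S : Sys) (A : ∀ i, S.Ω i → Prop)
    (h : ∀ κ : ℝ, 0 < κ → ∀ᶠ i in (uf : Filter ℕ), (2:ℝ) ^ (-(κ * S.L i)) < prE (S.P i) (A i)) :
    E.Dns (onS S A) S where
  π := fun _ ω => ω
  L_eq := rfl
  dom := by
    intro ε hε
    filter_upwards [h ε hε] with i hi
    have h0 : (0:ℝ) < (2:ℝ) ^ (-(ε * S.L i)) := by positivity
    have h1 := Stk.Dom.on h0 hi.le
    have h2 : 1 / (2:ℝ) ^ (-(ε * (S.L i : ℝ))) = (2:ℝ) ^ (ε * (S.L i : ℝ)) := by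
      rw [Real.rpow_neg (by norm_num), one_div, inv_inv]
    rw [h2] at h1
    exact h1

theorem onS_supp {S : Sys} {A : ∀ i, S.Ω i → Prop}
    (h : ∀ κ : ℝ, 0 < κ → ∀ᶠ i in (uf : Filter ℕ), (2:ℝ) ^ (-(κ * S.L i)) < prE (S.P i) (A i)) :
    (onS S A).Ae fun i ω => A i ω := by
  filter_upwards [h 1 one_pos] with i hi ω hω
  have h0 : 0 < prE (S.P i) (A i) := lt_trans (by positivity) hi
  exact (Stk.on_pos h0 hω).1

/-- two conditionally independent copies given `W` -/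
noncomputable def cpS (S : Sys) {α : Type*} (W : S.RV α) : Sys :=
  ⟨fun i => S.Ω i × S.Ω i, fun _ => inferInstance, fun i => cp (S.P i) (W i), S.L, S.Ltop⟩

/-- the first copy -/
def cp0 (S : Sys) {α : Type*} (W : S.RV α) : Ext (cpS S W) S :=
  ⟨fun _ w => w.1, rfl, fun i ω => cp_fst (S.P i) (W i) ω⟩

/-- the second copy -/
def cp1 (S : Sys) {α : Type*} (W : S.RV α) : Ext (cpS S W) S :=
  ⟨fun _ w => w.2, rfl, fun i ω => cp_snd (S.P i) (W i) ω⟩

theorem cpS_ae {S : Sys} {α : Type*} (W : S.RV α) : (cpS S W).Ae fun i w => W i w.1 = W i w.2 :=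
  Eventually.of_forall fun _ _ hw => (cp_supp hw).1

/-- the copies are independent given `W`, under every dense law -/
theorem mi_cpS {S S' : Sys} {α β γ : Type*} {W : S.RV α} (d : E.Dns S' (cpS S W)) {X : S.RV β}
    {Y : S.RV γ} (hY : Tame ((dExt d (cp1 S W)).pull Y)) :
    S'.mi ((dExt d (cp1 S W)).pull Y) ((dExt d (cp0 S W)).pull X) ((dExt d (cp0 S W)).pull W) ≤
      0 := by
  have key : ∀ ε : ℝ, 0 < ε → ∀ᶠ i in (uf : Filter ℕ),
      Stk.mi (S'.P i) ((dExt d (cp1 S W)).pull Y i)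
      ((dExt d (cp0 S W)).pull X i) ((dExt d (cp0 S W)).pull W i) ≤ ε * S'.nm i := by
    intro ε hε
    filter_upwards [d.dom ε hε] with i hi
    have h1 := mi_cp (P := S.P i) (W := W i) (Q := S'.P i) (π := d.π i)
      (K := (2:ℝ) ^ (ε * (cpS S W).L i)) hi
    rw [Stk.mi_symm, Real.log_rpow (by norm_num)] at h1
    have e : ε * ((cpS S W).L i : ℝ) * Real.log 2 = ε * S'.nm i := by
      unfold Sys.nm
      rw [d.L_eq]
      ring
    rw [e] at h1
    refine le_trans ?_ h1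
    refine le_trans (Stk.mi_mono_left (S'.P i) (X' := fun a => (d.π i a).2) _ ?_)
      (Stk.mi_mono_right (S'.P i) _ (Y' := fun a => (d.π i a).1) ?_)
    · intro a a' _ _ e
      have e1 : (d.π i a).2 = (d.π i a').2 := (Prod.mk.inj e).1
      show Y i (d.π i a).2 = Y i (d.π i a').2
      rw [e1]
    · intro a a' _ _ e
      have e1 : (d.π i a).1 = (d.π i a').1 := (Prod.mk.inj e).1
      show X i (d.π i a).1 = X i (d.π i a').1
      rw [e1]
  unfold Sys.mi Sys.hc
  rw [← ulim_sub (UB.hc hY _) (UB.hc hY _)]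
  refine le_of_forall_pos_le_add fun ε hε => ?_
  rw [zero_add]
  refine ulim_le_const ((UB.hc hY _).sub (UB.hc hY _)) ?_
  filter_upwards [key ε hε, S'.nm_pos] with i h1 h2
  rw [← sub_div, div_le_iff₀ h2]
  exact h1

/-! ### symmetric uncrossing, deterministic widths -/

section systems

variable {S : Sys} {γ : Type}

/-- level of the angle, deterministic widths -/
noncomputable def lvd (n k₁ k₂ : ℕ) (a b : ℝ) : ℕ := C1.lev (n - max k₁ k₂) |Real.sin (a - b)|

theorem abs_sin_comm (a b : ℝ) : |Real.sin (a - b)| = |Real.sin (b - a)| := by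
  have e : a - b = -(b - a) := by ring
  rw [e, Real.sin_neg, abs_neg]

theorem uncross_sym {n : ℕ → ℕ} (hn : S.Bd n) {l : S.RV Ln} (hl : LnA l) (C : S.RV γ)
    {U₁ U₂ : S.BX} (h1 : Around n l U₁) (h2 : Around n l U₂) {k₁ k₂ : ℕ → ℕ}
    (hk₁ : S.Ae fun i ω => (U₁ i).k ω = k₁ i) (hk₂ : S.Ae fun i ω => (U₂ i).k ω = k₂ i) :
    S.val (tubes n l) U₁ C + S.val (tubes n l) U₂ C ≤
      S.exc (tubes n l) C +
        S.av (fun i ω => (lvd (n i) (k₁ i) (k₂ i) ((U₁ i).θ ω) ((U₂ i).θ ω) : ℝ)) +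
        S.mi (BX.lab U₂) (BX.lab U₁) (Sys.pr (tbs n l) C) := by
  have tL1 : Tame (BX.lab U₁) := h1.ok.tame
  have tL2 : Tame (BX.lab U₂) := h2.ok.tame
  have o1 : OL (S := S) fun i ω => (lv n U₁ U₂ i ω : ℝ) := ol_nat hn _ (lv_le n U₁ U₂)
  have o2 : OL (S := S) fun i ω => (lv n U₂ U₁ i ω : ℝ) := ol_nat hn _ (lv_le n U₂ U₁)
  have o3 : OL (S := S) fun i ω =>
      (lvd (n i) (k₁ i) (k₂ i) ((U₁ i).θ ω) ((U₂ i).θ ω) : ℝ) :=
    ol_nat hn (fun i ω => lvd (n i) (k₁ i) (k₂ i) ((U₁ i).θ ω) ((U₂ i).θ ω))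
      fun i ω => (C1.lev_le _ _).trans (Nat.sub_le _ _)
  rcases Ultrafilter.eventually_or.1 (Eventually.of_forall (f := (uf : Filter ℕ))
    fun i => le_total (k₁ i) (k₂ i)) with hk | hk
  · have m1 := uncross hn hl C h1 h2 (by
      filter_upwards [hk, hk₁, hk₂] with i a1 a2 a3 ω p
      rw [a2 ω p, a3 ω p]
      exact a1)
    have m2 : S.av (fun i ω => (lv n U₁ U₂ i ω : ℝ)) =
        S.av (fun i ω => (lvd (n i) (k₁ i) (k₂ i) ((U₁ i).θ ω) ((U₂ i).θ ω) : ℝ)) := by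
      refine av_congr o1 o3 ?_
      filter_upwards [hk, hk₂] with i a1 a3 ω p
      unfold lv lvd
      rw [a3 ω p, max_eq_right a1]
    rw [← m2]
    exact m1
  · have m1 := uncross hn hl C h2 h1 (by
      filter_upwards [hk, hk₁, hk₂] with i a1 a2 a3 ω p
      rw [a2 ω p, a3 ω p]
      exact a1)
    have m2 : S.av (fun i ω => (lv n U₂ U₁ i ω : ℝ)) =
        S.av (fun i ω => (lvd (n i) (k₁ i) (k₂ i) ((U₁ i).θ ω) ((U₂ i).θ ω) : ℝ)) := by
      refine av_congr o2 o3 ?_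
      filter_upwards [hk, hk₁] with i a1 a3 ω p
      unfold lv lvd
      rw [a3 ω p, max_eq_left a1, abs_sin_comm]
    rw [← m2, mi_comm tL2 tL1]
    linarith

end systems

end Vale.Agent.P122.H380
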