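import Vale.Agent.P127.U.C1
import Vale.Agent.P127.U.Coarse

/-!
# P122 / uncrossing of two boxes around a tube (helper380)

`l` a random line, tubes of precision `n`, `U₁ U₂` two random boxes around `l` of thickness `2^-n`
and widths `2^-k₁ ≥ 2^-k₂`, `g` the level of the angle between their wide directions.

`uncross` : `val U₁ + val U₂ ≤ exc (tubes n l) + av g + I(U₂ ; U₁ | tube)`.
-/

set_option autoImplicit false

namespace Vale.Agent.P122.H380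

open Filter Topology Vale.Agent.P127 Vale.Agent.P127.Stk Vale.Agent.P127.U Vale.Agent.P127.U.Sys

section finite

variable {Ω : Type} [Fintype Ω] {γ : Type*} (P : Law Ω)

/-- two vectors in the intersection of two strips -/
theorem two_strips {θ1 θ2 : ℝ} {k1 k2 n g : ℕ} (hk : k1 ≤ k2) (hk2 : k2 ≤ n) (hg : g ≤ n - k2)
    (hs : g < n - k2 → (1 / 2 : ℝ) ^ g < |Real.sin (θ1 - θ2)|) {v w : Fin 2 → ℝ}
    (h1 : fl1 n (co (qa (n - k1) θ1) v 1) = fl1 n (co (qa (n - k1) θ1) w 1))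
    (h2 : fl1 n (co (qa (n - k2) θ2) v 1) = fl1 n (co (qa (n - k2) θ2) w 1))
    (h0 : fl1 k2 (co (qa (n - k2) θ2) v 0) = fl1 k2 (co (qa (n - k2) θ2) w 0)) :
    |co (qa (n - k2) θ2) v 0 - co (qa (n - k2) θ2) w 0| ≤ ((4 * 2 ^ g : ℕ) : ℝ) * (1 / 2 : ℝ) ^ n := by
  set φ := qa (n - k1) θ1 with hφ
  set χ := qa (n - k2) θ2 with hχ
  have u1 := U.fl1_close h1
  have u2 := U.fl1_close h2
  have u0 := U.fl1_close h0
  rw [← co_sub] at u1 u2 u0 ⊢
  set u : Fin 2 → ℝ := fun j => v j - w j with hu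
  have hn : (0:ℝ) < (1 / 2) ^ n := by positivity
  have hgn : (2:ℝ) ^ g * (1 / 2) ^ g = 1 := by rw [← mul_pow]; norm_num
  have e0 : (1 / 2 : ℝ) ^ k2 = 2 ^ (n - k2) * (1 / 2) ^ n := by
    have : (1 / 2 : ℝ) ^ n = (1 / 2) ^ (n - k2) * (1 / 2) ^ k2 := by
      rw [← pow_add]; congr 1; omega
    rw [this, ← mul_assoc, ← mul_pow]
    norm_num
  push_cast
  by_cases hc : n - k2 ≤ g + 2
  · -- the trivial bound
    have e1 : (2:ℝ) ^ (n - k2) ≤ 2 ^ (g + 2) := pow_le_pow_right₀ (by norm_num) hc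
    calc |co χ u 0| ≤ (1 / 2) ^ k2 := u0
      _ = 2 ^ (n - k2) * (1 / 2) ^ n := e0
      _ ≤ 2 ^ (g + 2) * (1 / 2) ^ n := mul_le_mul_of_nonneg_right e1 hn.le
      _ = _ := by rw [pow_add]; ring
  · have hs' := hs (by omega)
    have a1 := qa_close (n - k1) θ1
    have a2 := qa_close (n - k2) θ2
    have a3 : (1 / 2 : ℝ) ^ (n - k1) ≤ (1 / 2) ^ (n - k2) := C1.half_anti (by omega)
    have a4 : (1 / 2 : ℝ) ^ (n - k2) ≤ (1 / 2) ^ (g + 3) := C1.half_anti (by omega)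
    have a5 : (1 / 2 : ℝ) ^ (g + 3) = (1 / 2) ^ g / 8 := by rw [pow_add]; norm_num; ring
    have b1 : |Real.sin (φ - χ) - Real.sin (θ1 - θ2)| ≤ (1 / 2) ^ g / 4 := by
      refine (abs_sin_sub_le _ _).trans ?_
      have e : φ - χ - (θ1 - θ2) = (θ2 - χ) - (θ1 - φ) := by ring
      rw [e]
      refine (abs_sub _ _).trans ?_
      linarith
    have b2 : 3 / 4 * (1 / 2 : ℝ) ^ g ≤ |Real.sin (φ - χ)| := by
      have b3 := abs_sub_abs_le_abs_sub (Real.sin (θ1 - θ2)) (Real.sin (φ - χ))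
      rw [abs_sub_comm] at b3
      linarith
    have c1 := co_rot1 χ φ u
    have c2 : |Real.sin (φ - χ)| * |co χ u 0| ≤ 2 * (1 / 2) ^ n := by
      have e : Real.sin (φ - χ) * co χ u 0 = Real.cos (φ - χ) * co χ u 1 - co φ u 1 := by
        rw [c1]; ring
      rw [← abs_mul, e]
      have hc1 := Real.abs_cos_le_one (φ - χ)
      have d1 := abs_sub (Real.cos (φ - χ) * co χ u 1) (co φ u 1)
      rw [abs_mul] at d1
      have d2 : |Real.cos (φ - χ)| * |co χ u 1| ≤ 1 * (1 / 2) ^ n :=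
        mul_le_mul hc1 u2 (abs_nonneg _) (by norm_num)
      linarith
    have c3 : 3 / 4 * (1 / 2 : ℝ) ^ g * |co χ u 0| ≤ 2 * (1 / 2) ^ n :=
      (mul_le_mul_of_nonneg_right b2 (abs_nonneg _)).trans c2
    have c4 : |co χ u 0| = (2:ℝ) ^ g * ((1 / 2 : ℝ) ^ g * |co χ u 0|) := by
      rw [← mul_assoc, hgn, one_mul]
    rw [c4]
    have c5 : (1 / 2 : ℝ) ^ g * |co χ u 0| ≤ 4 * (1 / 2) ^ n := by linarith
    calc (2:ℝ) ^ g * ((1 / 2 : ℝ) ^ g * |co χ u 0|) ≤ 2 ^ g * (4 * (1 / 2) ^ n) :=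
          mul_le_mul_of_nonneg_left c5 (by positivity)
      _ = _ := by ring

/-- a vector from its coordinates in a frame -/
theorem co_inv {φ : ℝ} {u : Fin 2 → ℝ} {a : ℝ} (h : ∀ i, |co φ u i| ≤ a) (i : Fin 2) :
    |u i| ≤ 2 * a := by
  have hc := Real.abs_cos_le_one φ
  have hs := Real.abs_sin_le_one φ
  have t := Real.sin_sq_add_cos_sq φ
  have h0 := h 0
  have h1 := h 1
  have ha : 0 ≤ a := (abs_nonneg _).trans h0
  have key : ∀ (p q : ℝ), |p| ≤ 1 → |q| ≤ 1 → |p * co φ u 0 + q * co φ u 1| ≤ 2 * a := by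
    intro p q hp hq
    calc |p * co φ u 0 + q * co φ u 1| ≤ |p * co φ u 0| + |q * co φ u 1| := abs_add_le _ _
      _ = |p| * |co φ u 0| + |q| * |co φ u 1| := by rw [abs_mul, abs_mul]
      _ ≤ 1 * a + 1 * a := by gcongr
      _ = 2 * a := by ring
  fin_cases i
  · have e : u 0 = Real.cos φ * co φ u 0 + (-Real.sin φ) * co φ u 1 := by
      simp only [co, Matrix.cons_val_zero, Matrix.cons_val_one]
      linear_combination (-u 0) * t
    show |u 0| ≤ _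
    rw [e]
    exact key _ _ hc (by rwa [abs_neg])
  · have e : u 1 = Real.sin φ * co φ u 0 + Real.cos φ * co φ u 1 := by
      simp only [co, Matrix.cons_val_zero, Matrix.cons_val_one]
      linear_combination (-u 1) * t
    show |u 1| ≤ _
    rw [e]
    exact key _ _ hs hc

/-- tubes in the intersection of two boxes -/
theorem hc_tube_two (n : ℕ) (l : Ω → Ln) (θ1 θ2 : Ω → ℝ) (k1 k2 g : Ω → ℕ) (Z : Ω → γ)
    (h : ∀ ω, 0 < P.w ω → k1 ω ≤ k2 ω ∧ k2 ω ≤ n ∧ g ω ≤ n - k2 ω ∧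
      (g ω < n - k2 ω → (1 / 2 : ℝ) ^ g ω < |Real.sin (θ1 ω - θ2 ω)|)) :
    Stk.hc P (fun ω => tb n (l ω)) (fun ω => (lab (θ1 ω) (k1 ω) n (l ω),
      (lab (θ2 ω) (k2 ω) n (l ω), (g ω, Z ω)))) ≤
      2 * P.ex (fun ω => (g ω : ℝ)) * Real.log 2 + (2 * Real.log 11 + 4 * Real.log 7) := by
  set Y : Ω → Lab × Lab × ℕ × γ := fun ω => (lab (θ1 ω) (k1 ω) n (l ω),
      (lab (θ2 ω) (k2 ω) n (l ω), (g ω, Z ω))) with hY
  set χ : Ω → ℝ := fun ω => qa (n - k2 ω) (θ2 ω) with hχ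
  have key : ∀ ω ω', 0 < P.w ω → 0 < P.w ω' → Y ω = Y ω' → χ ω = χ ω' ∧
      |co (χ ω) (l ω).1 0 - co (χ ω') (l ω').1 0| ≤ ((4 * 2 ^ g ω : ℕ) : ℝ) * (1 / 2 : ℝ) ^ n ∧
      |co (χ ω) (l ω).2 0 - co (χ ω') (l ω').2 0| ≤ ((4 * 2 ^ g ω : ℕ) : ℝ) * (1 / 2 : ℝ) ^ n ∧
      |co (χ ω) (l ω).1 1 - co (χ ω') (l ω').1 1| ≤ (1 / 2 : ℝ) ^ n ∧
      |co (χ ω) (l ω).2 1 - co (χ ω') (l ω').2 1| ≤ (1 / 2 : ℝ) ^ n := by
    intro ω ω' p p' e
    obtain ⟨a1, a2, a3, a4⟩ := h ω p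
    simp only [hY, Prod.mk.injEq, lab] at e
    obtain ⟨⟨b1, -, b3, b4, b5⟩, ⟨c1, -, c3, c4, c5⟩, d, -⟩ := e
    rw [← b1] at b3 b4 b5
    rw [← c1] at c3 c4 c5
    have q1 : qa (n - k1 ω) (θ1 ω) = qa (n - k1 ω) (θ1 ω') := Apx.qa_congr b3
    have q2 : qa (n - k2 ω) (θ2 ω) = qa (n - k2 ω) (θ2 ω') := Apx.qa_congr c3
    rw [← q1] at b4 b5
    rw [← q2] at c4 c5
    have hχ' : χ ω = χ ω' := by
      simp only [hχ]
      rw [← c1]
      exact q2
    rw [← hχ']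
    simp only [fkj, Prod.mk.injEq] at b4 b5 c4 c5
    refine ⟨rfl, ?_, ?_, ?_, ?_⟩
    · exact two_strips a1 a2 a3 a4 b4.2 c4.2 c4.1
    · exact two_strips a1 a2 a3 a4 b5.2 c5.2 c5.1
    · exact U.fl1_close c4.2
    · exact U.fl1_close c5.2
  -- frame digits
  set x1 : Ω → ℤ := fun ω => fl1 n (co (χ ω) (l ω).1 0) with hx1
  set x2 : Ω → ℤ := fun ω => fl1 n (co (χ ω) (l ω).2 0) with hx2
  have logb : ∀ m : ℕ, Real.log (2 * ((4 * 2 ^ m : ℕ) : ℝ) + 3) ≤ Real.log 2 * m + Real.log 11 := by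
    intro m
    have hp : (1 : ℝ) ≤ 2 ^ m := one_le_pow₀ (by norm_num)
    have h3 : Real.log 2 * (m : ℝ) + Real.log 11 = Real.log (2 ^ m * 11) := by
      rw [Real.log_mul (by positivity) (by norm_num), Real.log_pow]
      ring
    rw [h3]
    push_cast
    apply Real.log_le_log (by positivity)
    linarith
  have hex : ∀ G : Ω → ℕ, P.ex (fun ω => Real.log (2 * ((4 * 2 ^ G ω : ℕ) : ℝ) + 3)) ≤
      P.ex (fun ω => (G ω : ℝ)) * Real.log 2 + Real.log 11 := by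
    intro G
    have e : P.ex (fun ω => (G ω : ℝ)) * Real.log 2 + Real.log 11 =
        P.ex (fun ω => Real.log 2 * (G ω : ℝ) + Real.log 11) := by
      rw [P.ex_add, P.ex_const, P.ex_const_mul]
      ring
    rw [e]
    exact P.ex_mono fun ω _ => logb _
  have s1 : Stk.hc P x1 Y ≤ P.ex (fun ω => (g ω : ℝ)) * Real.log 2 + Real.log 11 :=
    (H205.hc_fl1_diam_var P n (fun ω => co (χ ω) (l ω).1 0) Y (fun y => 4 * 2 ^ y.2.2.1)
      (fun ω ω' p p' e => (key ω ω' p p' e).2.1)).trans (hex g)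
  have s2 : Stk.hc P x2 Y ≤ P.ex (fun ω => (g ω : ℝ)) * Real.log 2 + Real.log 11 :=
    (H205.hc_fl1_diam_var P n (fun ω => co (χ ω) (l ω).2 0) Y (fun y => 4 * 2 ^ y.2.2.1)
      (fun ω ω' p p' e => (key ω ω' p p' e).2.2.1)).trans (hex g)
  have s3 : Stk.hc P (fun ω => (x1 ω, x2 ω)) Y ≤
      2 * P.ex (fun ω => (g ω : ℝ)) * Real.log 2 + 2 * Real.log 11 := by
    have := Apx.hc_pair_le P x1 x2 Y
    linarith
  have s4 : Stk.hc P (fun ω => tb n (l ω)) (fun ω => ((x1 ω, x2 ω), Y ω)) ≤ 4 * Real.log 7 := by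
    have t1 : ∀ (v : Ω → Fin 2 → ℝ), (∀ ω ω', 0 < P.w ω → 0 < P.w ω' →
        ((x1 ω, x2 ω), Y ω) = ((x1 ω', x2 ω'), Y ω') →
        |co (χ ω) (v ω) 0 - co (χ ω) (v ω') 0| ≤ (1 / 2 : ℝ) ^ n ∧
        |co (χ ω) (v ω) 1 - co (χ ω) (v ω') 1| ≤ (1 / 2 : ℝ) ^ n) →
        Stk.hc P (fun ω => fl n (v ω)) (fun ω => ((x1 ω, x2 ω), Y ω)) ≤ 2 * Real.log 7 := by
      intro v hv
      have h5 := Apx.hc_fl_apx P n 2 v (fun ω => ((x1 ω, x2 ω), Y ω)) (by
        intro ω ω' p p' e i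
        obtain ⟨f0, f1⟩ := hv ω ω' p p' e
        rw [← co_sub] at f0 f1
        have := co_inv (φ := χ ω) (u := fun j => v ω j - v ω' j) (a := (1 / 2 : ℝ) ^ n)
          (fun i => by fin_cases i <;> assumption) i
        push_cast
        exact this)
      refine h5.trans (le_of_eq ?_)
      norm_num
    have t2 := t1 (fun ω => (l ω).1) (by
      intro ω ω' p p' e
      simp only [Prod.mk.injEq] at e
      obtain ⟨⟨e1, -⟩, e3⟩ := e
      obtain ⟨k1', -, -, k4, -⟩ := key ω ω' p p' e3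
      have e1' : fl1 n (co (χ ω) (l ω).1 0) = fl1 n (co (χ ω') (l ω').1 0) := e1
      rw [← k1'] at k4 e1'
      exact ⟨U.fl1_close e1', k4⟩)
    have t3 := t1 (fun ω => (l ω).2) (by
      intro ω ω' p p' e
      simp only [Prod.mk.injEq] at e
      obtain ⟨⟨-, e2⟩, e3⟩ := e
      obtain ⟨k1', -, -, -, k5⟩ := key ω ω' p p' e3
      have e2' : fl1 n (co (χ ω) (l ω).2 0) = fl1 n (co (χ ω') (l ω').2 0) := e2
      rw [← k1'] at k5 e2'
      exact ⟨U.fl1_close e2', k5⟩)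
    have t4 := Apx.hc_pair_le P (fun ω => fl n (l ω).1) (fun ω => fl n (l ω).2)
      (fun ω => ((x1 ω, x2 ω), Y ω))
    have t5 : Stk.hc P (fun ω => tb n (l ω)) (fun ω => ((x1 ω, x2 ω), Y ω)) =
      Stk.hc P (fun ω => (fl n (l ω).1, fl n (l ω).2)) (fun ω => ((x1 ω, x2 ω), Y ω)) := rfl
    rw [t5]
    linarith
  have s5 := Apx.hc_via P (fun ω => tb n (l ω)) (fun ω => (x1 ω, x2 ω)) Y
  linarith

end finite

section systems

variable {S : Sys} {γ : Type}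

/-- level of the angle between the wide directions of two boxes of thickness `2^-n` around the same
line : the greatest `g ≤ n - k₂` such that `|sin (θ₁ - θ₂)| ≤ 2 * 2^-g` -/
noncomputable def lv (n : ℕ → ℕ) (U₁ U₂ : S.BX) : S.RV ℕ := fun i ω =>
  C1.lev (n i - (U₂ i).k ω) |Real.sin ((U₁ i).θ ω - (U₂ i).θ ω)|

/-- a box of thickness `2^-n` around the line `l` -/
structure Around (n : ℕ → ℕ) (l : S.RV Ln) (U : S.BX) : Prop where
  ok : BxA U
  line : S.Ae fun i ω => (U i).l ω = l i ω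
  thick : S.Ae fun i ω => (U i).j ω = n i

/-- equal variables on the support -/
theorem fn_of_ae {α : Type*} {X X' : S.RV α} (h : S.Ae fun i ω => X i ω = X' i ω) : Fn X X' := by
  filter_upwards [h] with i hi ω ω' p p' e
  rw [hi ω p, hi ω' p', e]

theorem av_congr {f g : S.RV ℝ} (hf : OL f) (hg : OL g) (h : S.Ae fun i ω => f i ω = g i ω) :
    S.av f = S.av g := by
  refine le_antisymm (av_mono hf hg ?_) (av_mono hg hf ?_)
  · filter_upwards [h] with i hi ω p using (hi ω p).le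
  · filter_upwards [h] with i hi ω p using (hi ω p).ge

theorem ol_nat {n : ℕ → ℕ} (hn : S.Bd n) (G : S.RV ℕ) (hG : ∀ i ω, G i ω ≤ n i) :
    OL (S := S) fun i ω => (G i ω : ℝ) := by
  obtain ⟨c, hc⟩ := hn
  refine ⟨c, ?_⟩
  filter_upwards [hc] with i h1 ω _
  have h2 : (G i ω : ℝ) ≤ n i := by exact_mod_cast hG i ω
  rw [abs_of_nonneg (Nat.cast_nonneg _)]
  exact h2.trans h1

theorem lv_le (n : ℕ → ℕ) (U₁ U₂ : S.BX) (i : ℕ) (ω : S.Ω i) : lv n U₁ U₂ i ω ≤ n i :=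
  (C1.lev_le _ _).trans (Nat.sub_le _ _)

/-- tubes in the intersection of two boxes, systems -/
theorem hc_tube_two_sys {n : ℕ → ℕ} (hn : S.Bd n) {l : S.RV Ln} (hl : LnA l) (C : S.RV γ)
    {U₁ U₂ : S.BX} (h1 : Around n l U₁) (h2 : Around n l U₂)
    (hk : S.Ae fun i ω => (U₁ i).k ω ≤ (U₂ i).k ω) :
    S.hc (tbs n l) (Sys.pr (BX.lab U₁) (Sys.pr (BX.lab U₂) C)) ≤
      2 * S.av fun i ω => (lv n U₁ U₂ i ω : ℝ) := by
  set G : S.RV ℕ := lv n U₁ U₂ with hG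
  have tT : Tame (tbs n l) := tame_tbs hn hl
  have tG : Tame G := C1.tame_level hn G (lv_le n U₁ U₂)
  have z : S.hc G (Sys.pr (BX.lab U₁) (Sys.pr (BX.lab U₂) C)) = 0 :=
    C1.hc_level hn G (lv_le n U₁ U₂) _
  have e1 := hc_cond_zero tT tG z
  rw [← e1]
  have oG : OL (S := S) fun i ω => (G i ω : ℝ) := ol_nat hn G (lv_le n U₁ U₂)
  have uA : UB fun i => (S.P i).ex (fun ω => (G i ω : ℝ)) / S.L i := UB.av oG
  have key : ∀ᶠ i in (uf : Filter ℕ), Stk.hc (S.P i) (tbs n l i)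
      ((Sys.pr G (Sys.pr (BX.lab U₁) (Sys.pr (BX.lab U₂) C))) i) ≤
      2 * (S.P i).ex (fun ω => (G i ω : ℝ)) * Real.log 2 + (2 * Real.log 11 + 4 * Real.log 7) := by
    filter_upwards [h1.ok.1, h2.ok.1, h1.line, h2.line, h1.thick, h2.thick, hk] with
      i a1 a2 a3 a4 a5 a6 a7
    have b1 := hc_tube_two (S.P i) (n i) (l i) (U₁ i).θ (U₂ i).θ (U₁ i).k (U₂ i).k (G i) (C i) (by
      intro ω p
      refine ⟨a7 ω p, ?_, C1.lev_le _ _, fun hlt => C1.lev_lt hlt⟩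
      rw [← a6 ω p]
      exact (a2 ω p).2.2)
    refine le_trans ?_ b1
    refine Stk.hc_mono_right _ _ ?_
    intro ω ω' p p' e
    simp only [Sys.pr_apply, Prod.mk.injEq] at e
    obtain ⟨e1, e2, e3, e4⟩ := e
    have f1 : (U₁ i).lab ω = lab ((U₁ i).θ ω) ((U₁ i).k ω) (n i) (l i ω) := by
      unfold Bx.lab
      rw [a3 ω p, a5 ω p]
    have f1' : (U₁ i).lab ω' = lab ((U₁ i).θ ω') ((U₁ i).k ω') (n i) (l i ω') := by
      unfold Bx.lab
      rw [a3 ω' p', a5 ω' p']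
    have f2 : (U₂ i).lab ω = lab ((U₂ i).θ ω) ((U₂ i).k ω) (n i) (l i ω) := by
      unfold Bx.lab
      rw [a4 ω p, a6 ω p]
    have f2' : (U₂ i).lab ω' = lab ((U₂ i).θ ω') ((U₂ i).k ω') (n i) (l i ω') := by
      unfold Bx.lab
      rw [a4 ω' p', a6 ω' p']
    have e2' : (U₁ i).lab ω = (U₁ i).lab ω' := e2
    have e3' : (U₂ i).lab ω = (U₂ i).lab ω' := e3
    exact Prod.ext ((f1.symm.trans e2').trans f1')
      (Prod.ext ((f2.symm.trans e3').trans f2') (Prod.ext e1 e4))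
  unfold Sys.hc Sys.av
  rw [← ulim_const_mul 2 uA]
  refine ulim_le_of_sub (UB.hc tT _) (uA.const_mul 2)
    (S.const_div_nm (2 * Real.log 11 + 4 * Real.log 7)) ?_
  filter_upwards [key, S.nm_pos, S.L_pos] with i h3 h4 h5
  have hL : (0:ℝ) < S.L i := by exact_mod_cast h5
  have hlog : 0 < Real.log 2 := Real.log_pos (by norm_num)
  have e : 2 * ((S.P i).ex (fun ω => (G i ω : ℝ)) / S.L i) +
      (2 * Real.log 11 + 4 * Real.log 7) / S.nm i =
      (2 * (S.P i).ex (fun ω => (G i ω : ℝ)) * Real.log 2 +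
        (2 * Real.log 11 + 4 * Real.log 7)) / S.nm i := by
    unfold Sys.nm
    field_simp
  rw [e]
  exact div_le_div_of_nonneg_right h3 h4.le

end systems

end Vale.Agent.P122.H380
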