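import Vale.Agent.P122.H380.Ux
import Vale.Agent.P127.U.ExcA

/-!
# P122 / uncrossing of two boxes around a tube, main inequality (helper380)

`uncross` : `val U₁ + val U₂ ≤ exc (tubes n l) + av g + I(U₂ ; U₁ | tube)`.
-/

set_option autoImplicit false

namespace Vale.Agent.P122.H380

open Filter Topology Vale.Agent.P127 Vale.Agent.P127.Stk Vale.Agent.P127.U Vale.Agent.P127.U.Sys

section systems

variable {S : Sys} {γ : Type}

/-- geometry: the thickened box of `U₁` around a second line of the box `U₂` -/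
theorem thick_close {θ₁ θ₂ θ₂' : ℝ} {k₁ k₂ n g : ℕ} (hk : k₁ ≤ k₂) (hk2 : k₂ ≤ n)
    (hg : g = C1.lev (n - k₂) |Real.sin (θ₁ - θ₂)|) {l l' : Ln}
    (h : lab θ₂ k₂ n l = lab θ₂' k₂ n l') :
    LabCl 6 (lab θ₁ k₁ (k₂ + g) l) (lab θ₁ k₁ (k₂ + g) l') := by
  have hgn : g ≤ n - k₂ := by rw [hg]; exact C1.lev_le _ _
  have h1 : |Real.sin (θ₁ - θ₂)| ≤ 2 * (1 / 2 : ℝ) ^ g := by
    rw [hg]
    refine C1.le_lev ?_
    have := Real.abs_sin_le_one (θ₁ - θ₂)
    linarith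
  have h2 : |Real.sin (θ₂ - θ₁)| * (1 / 2 : ℝ) ^ k₂ ≤ 2 * (1 / 2 : ℝ) ^ (k₂ + g) := by
    have e : θ₂ - θ₁ = -(θ₁ - θ₂) := by ring
    rw [e, Real.sin_neg, abs_neg, pow_add]
    calc |Real.sin (θ₁ - θ₂)| * (1 / 2 : ℝ) ^ k₂ ≤ (2 * (1 / 2 : ℝ) ^ g) * (1 / 2 : ℝ) ^ k₂ :=
          mul_le_mul_of_nonneg_right h1 (by positivity)
      _ = _ := by ring
  exact lab_close (c := 2) (N := 5) hk2 (by omega) hk (by omega) h2 (by norm_num) (by norm_num) h

/-- **uncrossing**: two boxes around the same tube -/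
theorem uncross {n : ℕ → ℕ} (hn : S.Bd n) {l : S.RV Ln} (hl : LnA l) (C : S.RV γ)
    {U₁ U₂ : S.BX} (h1 : Around n l U₁) (h2 : Around n l U₂)
    (hk : S.Ae fun i ω => (U₁ i).k ω ≤ (U₂ i).k ω) :
    S.val (tubes n l) U₁ C + S.val (tubes n l) U₂ C ≤
      S.exc (tubes n l) C + S.av (fun i ω => (lv n U₁ U₂ i ω : ℝ)) +
        S.mi (BX.lab U₂) (BX.lab U₁) (Sys.pr (tbs n l) C) := by
  classical
  set G : S.RV ℕ := lv n U₁ U₂ with hG
  set T : S.RV ((Fin 2 → ℤ) × (Fin 2 → ℤ)) := tbs n l with hT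
  have tT : Tame T := tame_tbs hn hl
  have tL1 : Tame (BX.lab U₁) := h1.ok.tame
  have tL2 : Tame (BX.lab U₂) := h2.ok.tame
  obtain ⟨S', e, hW, hind⟩ := exists_copies S (Sys.pr (BX.lab U₂) C) 1
  -- variables of the two copies
  set T₀ := (e 0).pull T with hT0
  set T₁ := (e 1).pull T with hT1
  set A := (e 0).pull (BX.lab U₁) with hA
  set B₀ := (e 0).pull (BX.lab U₂) with hB0
  set B₁ := (e 1).pull (BX.lab U₂) with hB1
  set C₀ := (e 0).pull C with hC0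
  set C₁ := (e 1).pull C with hC1
  have tT1 : Tame T₁ := (e 1).tame tT
  have tA : Tame A := (e 0).tame tL1
  have tB1 : Tame B₁ := (e 1).tame tL2
  have tB0 : Tame B₀ := (e 0).tame tL2
  have hBC : ∀ i ω, 0 < (S'.P i).w ω → B₁ i ω = B₀ i ω ∧ C₁ i ω = C₀ i ω := by
    intro i ω p
    have := hW 1 i ω p
    simp only [Sys.pr_apply, Prod.mk.injEq] at this
    exact this
  -- (a) the second tube given the box and the first copy
  have a1 : S'.hc T₁ (Sys.pr A (Sys.pr B₁ C₁)) = S.hc T (Sys.pr (BX.lab U₂) C) :=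
    hind 1 T A (fun i ω ω' h => by
      have h0 : (e 0).π i ω = (e 0).π i ω' := h 0 (by decide)
      show (BX.lab U₁) i ((e 0).π i ω) = (BX.lab U₁) i ((e 0).π i ω')
      rw [h0])
  -- (b) the box given the second tube
  have a2 : S'.hc B₁ (Sys.pr T₁ C₁) = S.hc (BX.lab U₂) (Sys.pr T C) :=
    (e 1).hc (BX.lab U₂) (Sys.pr T C)
  have a3 : S'.hc B₁ (Sys.pr T₁ (Sys.pr A C₁)) ≤ S'.hc B₁ (Sys.pr T₁ C₁) :=
    hc_mono_right tB1 (Eventually.of_forall fun _ _ _ _ _ q => by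
      simp only [Sys.pr_apply, Prod.mk.injEq] at q ⊢
      exact ⟨q.1, q.2.2⟩)
  -- (c) the box given the first box
  have a4 : S'.hc B₁ (Sys.pr A C₁) = S.hc (BX.lab U₂) (Sys.pr (BX.lab U₁) C) := by
    rw [← (e 0).hc (BX.lab U₂) (Sys.pr (BX.lab U₁) C)]
    show S'.hc B₁ (Sys.pr A C₁) = S'.hc B₀ (Sys.pr A C₀)
    refine hc_congr ?_ ?_ ?_ ?_
    · refine Eventually.of_forall fun i ω ω' p p' q => ?_
      simp only [Sys.pr_apply, Prod.mk.injEq] at q
      rw [(hBC i ω p).1, (hBC i ω' p').1]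
      exact q.1
    · refine Eventually.of_forall fun i ω ω' p p' q => ?_
      simp only [Sys.pr_apply, Prod.mk.injEq] at q
      rw [← (hBC i ω p).1, ← (hBC i ω' p').1]
      exact q.1
    · refine Eventually.of_forall fun i ω ω' p p' q => ?_
      simp only [Sys.pr_apply, Prod.mk.injEq] at q ⊢
      rw [(hBC i ω p).2, (hBC i ω' p').2]
      exact q
    · refine Eventually.of_forall fun i ω ω' p p' q => ?_
      simp only [Sys.pr_apply, Prod.mk.injEq] at q ⊢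
      rw [← (hBC i ω p).2, ← (hBC i ω' p').2]
      exact q
  -- chain rules in `S'`
  have c1 := hc_pair tB1 tT1 (Sys.pr A C₁)
  have c2 := hc_pair tT1 tB1 (Sys.pr A C₁)
  have c3 : S'.hc (Sys.pr B₁ T₁) (Sys.pr A C₁) = S'.hc (Sys.pr T₁ B₁) (Sys.pr A C₁) :=
    hc_congr (Eventually.of_forall fun _ _ _ _ _ q => by
        simp only [Sys.pr_apply, Prod.mk.injEq] at q ⊢
        exact ⟨q.1.2, q.1.1⟩)
      (Eventually.of_forall fun _ _ _ _ _ q => by
        simp only [Sys.pr_apply, Prod.mk.injEq] at q ⊢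
        exact ⟨q.1.2, q.1.1⟩)
      (Eventually.of_forall fun _ _ _ _ _ q => q) (Eventually.of_forall fun _ _ _ _ _ q => q)
  have c4 : S'.hc T₁ (Sys.pr B₁ (Sys.pr A C₁)) = S'.hc T₁ (Sys.pr A (Sys.pr B₁ C₁)) :=
    hc_congr (Eventually.of_forall fun _ _ _ _ _ q => congrArg Prod.fst q)
      (Eventually.of_forall fun _ _ _ _ _ q => congrArg Prod.fst q)
      (Eventually.of_forall fun _ _ _ _ _ q => by
        simp only [Sys.pr_apply, Prod.mk.injEq] at q ⊢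
        exact ⟨q.2.1, q.1, q.2.2⟩)
      (Eventually.of_forall fun _ _ _ _ _ q => by
        simp only [Sys.pr_apply, Prod.mk.injEq] at q ⊢
        exact ⟨q.2.1, q.1, q.2.2⟩)
  -- chain rules in `S`
  have d1 := hc_pair tT tL2 (Sys.pr (BX.lab U₁) C)
  have d2 := hc_pair tL2 tT (Sys.pr (BX.lab U₁) C)
  have d3 : S.hc (Sys.pr T (BX.lab U₂)) (Sys.pr (BX.lab U₁) C) =
      S.hc (Sys.pr (BX.lab U₂) T) (Sys.pr (BX.lab U₁) C) :=
    hc_congr (Eventually.of_forall fun _ _ _ _ _ q => by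
        simp only [Sys.pr_apply, Prod.mk.injEq] at q ⊢
        exact ⟨q.1.2, q.1.1⟩)
      (Eventually.of_forall fun _ _ _ _ _ q => by
        simp only [Sys.pr_apply, Prod.mk.injEq] at q ⊢
        exact ⟨q.1.2, q.1.1⟩)
      (Eventually.of_forall fun _ _ _ _ _ q => q) (Eventually.of_forall fun _ _ _ _ _ q => q)
  have d4 : S.hc T (Sys.pr (BX.lab U₂) (Sys.pr (BX.lab U₁) C)) =
      S.hc T (Sys.pr (BX.lab U₁) (Sys.pr (BX.lab U₂) C)) :=
    hc_congr (Eventually.of_forall fun _ _ _ _ _ q => congrArg Prod.fst q)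
      (Eventually.of_forall fun _ _ _ _ _ q => congrArg Prod.fst q)
      (Eventually.of_forall fun _ _ _ _ _ q => by
        simp only [Sys.pr_apply, Prod.mk.injEq] at q ⊢
        exact ⟨q.2.1, q.1, q.2.2⟩)
      (Eventually.of_forall fun _ _ _ _ _ q => by
        simp only [Sys.pr_apply, Prod.mk.injEq] at q ⊢
        exact ⟨q.2.1, q.1, q.2.2⟩)
  have d5 : S.hc (BX.lab U₂) (Sys.pr T (Sys.pr (BX.lab U₁) C)) =
      S.hc (BX.lab U₂) (Sys.pr (BX.lab U₁) (Sys.pr T C)) :=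
    hc_congr (Eventually.of_forall fun _ _ _ _ _ q => congrArg Prod.fst q)
      (Eventually.of_forall fun _ _ _ _ _ q => congrArg Prod.fst q)
      (Eventually.of_forall fun _ _ _ _ _ q => by
        simp only [Sys.pr_apply, Prod.mk.injEq] at q ⊢
        exact ⟨q.2.1, q.1, q.2.2⟩)
      (Eventually.of_forall fun _ _ _ _ _ q => by
        simp only [Sys.pr_apply, Prod.mk.injEq] at q ⊢
        exact ⟨q.2.1, q.1, q.2.2⟩)
  have d6 := hc_tube_two_sys hn hl C h1 h2 hk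
  have d7 : S.mi (BX.lab U₂) (BX.lab U₁) (Sys.pr T C) =
      S.hc (BX.lab U₂) (Sys.pr T C) - S.hc (BX.lab U₂) (Sys.pr (BX.lab U₁) (Sys.pr T C)) := rfl
  -- the main lower bound
  have m1 : S.hc T (Sys.pr (BX.lab U₁) C) + S.hc T (Sys.pr (BX.lab U₂) C) -
      S.mi (BX.lab U₂) (BX.lab U₁) (Sys.pr T C) - 2 * S.av (fun i ω => (G i ω : ℝ)) ≤
      S'.hc T₁ (Sys.pr A C₁) := by
    linarith
  -- the thickened box around the second line
  let W : S'.BX := fun i => ⟨fun ω => l i ((e 1).π i ω), fun ω => (U₁ i).θ ((e 0).π i ω),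
    fun ω => (U₁ i).k ((e 0).π i ω), fun ω => (U₂ i).k ((e 0).π i ω) + G i ((e 0).π i ω)⟩
  have okT : BxA (tubes n l) := tubes_ok hn hl
  have okT1 : BxA ((e 1).pullB (tubes n l)) := (e 1).bxA okT
  have aeAll : S.Ae fun i ω => (U₁ i).l ω = l i ω ∧ (U₂ i).l ω = l i ω ∧ (U₁ i).j ω = n i ∧
      (U₂ i).j ω = n i ∧ (U₁ i).k ω ≤ (U₂ i).k ω ∧ BxOk (U₁ i) ω ∧ BxOk (U₂ i) ω := by
    filter_upwards [h1.ok.1, h2.ok.1, h1.line, h2.line, h1.thick, h2.thick, hk] with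
      i a1 a2 a3 a4 a5 a6 a7 ω p
    exact ⟨a3 ω p, a4 ω p, a5 ω p, a6 ω p, a7 ω p, a1 ω p, a2 ω p⟩
  have ae0 := (e 0).ae aeAll
  have ae1 := (e 1).ae aeAll
  have hsub : S'.Ae fun i ω => Sub 1 (((e 1).pullB (tubes n l)) i) (W i) ω := by
    filter_upwards [ae0] with i g0 ω p
    obtain ⟨q1, q2, q3, q4, q5, q6, q7⟩ := g0 ω p
    have hgn : G i ((e 0).π i ω) ≤ n i - (U₂ i).k ((e 0).π i ω) := C1.lev_le _ _
    have hk2 : (U₂ i).k ((e 0).π i ω) ≤ n i := by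
      rw [← q4]
      exact q7.2.2
    have hkk : (U₁ i).k ((e 0).π i ω) ≤ (U₂ i).k ((e 0).π i ω) := q5
    refine ⟨rfl, q6.2.1, ?_, ?_, ?_, ?_⟩
    · show (U₁ i).k ((e 0).π i ω) ≤ (U₂ i).k ((e 0).π i ω) + G i ((e 0).π i ω)
      omega
    · show (U₁ i).k ((e 0).π i ω) ≤ n i
      omega
    · show (U₂ i).k ((e 0).π i ω) + G i ((e 0).π i ω) ≤ n i
      omega
    · show |Real.sin (0 - (U₁ i).θ ((e 0).π i ω))| * (1 / 2 : ℝ) ^ n i ≤
        1 * (1 / 2 : ℝ) ^ ((U₂ i).k ((e 0).π i ω) + G i ((e 0).π i ω))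
      have r1 := Real.abs_sin_le_one (0 - (U₁ i).θ ((e 0).π i ω))
      have r2 : (1 / 2 : ℝ) ^ n i ≤
        (1 / 2 : ℝ) ^ ((U₂ i).k ((e 0).π i ω) + G i ((e 0).π i ω)) := C1.half_anti (by omega)
      exact mul_le_mul r1 r2 (by positivity) (by norm_num)
  have hWA : BxA W := bxA_of_sub okT1 ⟨1, hsub⟩
  have tW : Tame (BX.lab W) := hWA.tame
  -- the label of `W` is known from the first box, up to the levels
  set D : S'.RV (ℕ × ℕ) := fun i ω => (min ((U₂ i).k ((e 0).π i ω)) (n i), G i ((e 0).π i ω)) with hD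
  have hn' : S'.Bd n := by
    obtain ⟨c, hc⟩ := hn
    refine ⟨c, ?_⟩
    rw [(e 0).L_eq]
    exact hc
  have zD : ∀ {δ : Type} (Y : S'.RV δ), S'.hc D Y = 0 := by
    intro δ Y
    have t1 : Tame (fun i ω => min ((U₂ i).k ((e 0).π i ω)) (n i) : S'.RV ℕ) :=
      C1.tame_level hn' _ fun i ω => min_le_right _ _
    have t2 : Tame (fun i ω => G i ((e 0).π i ω) : S'.RV ℕ) :=
      C1.tame_level hn' _ fun i ω => lv_le n U₁ U₂ i _
    have z1 : S'.hc (fun i ω => min ((U₂ i).k ((e 0).π i ω)) (n i) : S'.RV ℕ) Y = 0 :=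
      C1.hc_level hn' _ (fun i ω => min_le_right _ _) Y
    have z2 : S'.hc (fun i ω => G i ((e 0).π i ω) : S'.RV ℕ)
        (Sys.pr (fun i ω => min ((U₂ i).k ((e 0).π i ω)) (n i) : S'.RV ℕ) Y) = 0 :=
      C1.hc_level hn' _ (fun i ω => lv_le n U₁ U₂ i _) _
    have := hc_pair t1 t2 Y
    rw [z1, z2, add_zero] at this
    exact this
  have zW : S'.hc (BX.lab W) (Sys.pr D (Sys.pr A C₁)) = 0 := by
    refine hc_zero_of_le (Real.log (((2 * 16 + 1) ^ 4 : ℕ) : ℝ)) ?_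
    filter_upwards [ae0, ae1] with i g0 g1
    refine ExcB.hc_labCl' (S'.P i) _ _ 16 ?_
    intro ω ω' p p' q
    obtain ⟨q1, q2, q3, q4, q5, q6, q7⟩ := g0 ω p
    obtain ⟨r1, r2, r3, r4, r5, r6, r7⟩ := g0 ω' p'
    obtain ⟨q1', q2', q3', q4', q5', q6', q7'⟩ := g1 ω p
    obtain ⟨r1', r2', r3', r4', r5', r6', r7'⟩ := g1 ω' p'
    have hk2 : (U₂ i).k ((e 0).π i ω) ≤ n i := by
      rw [← q4]
      exact q7.2.2
    have hk2' : (U₂ i).k ((e 0).π i ω') ≤ n i := by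
      rw [← r4]
      exact r7.2.2
    simp only [Sys.pr_apply, Prod.mk.injEq, hD, min_eq_left hk2, min_eq_left hk2'] at q
    obtain ⟨⟨s1, s2⟩, s3, -⟩ := q
    have s3' : (U₁ i).lab ((e 0).π i ω') = (U₁ i).lab ((e 0).π i ω) := s3
    -- labels of the second boxes
    have hb : ∀ x, 0 < (S'.P i).w x → (U₂ i).lab ((e 1).π i x) = (U₂ i).lab ((e 0).π i x) :=
      fun x px => (hBC i x px).1
    have step : ∀ x, 0 < (S'.P i).w x →
        LabCl 6 ((W i).lab x) (lab ((U₁ i).θ ((e 0).π i x)) ((U₁ i).k ((e 0).π i x))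
          ((U₂ i).k ((e 0).π i x) + G i ((e 0).π i x)) (l i ((e 0).π i x))) := by
      intro x px
      obtain ⟨y1, y2, y3, y4, y5, y6, y7⟩ := g0 x px
      obtain ⟨y1', y2', y3', y4', y5', y6', y7'⟩ := g1 x px
      have hkx : (U₂ i).k ((e 0).π i x) ≤ n i := by
        rw [← y4]
        exact y7.2.2
      have hbx := hb x px
      obtain ⟨w1, w2⟩ := lab_shape hbx
      have w3 : lab ((U₂ i).θ ((e 0).π i x)) ((U₂ i).k ((e 0).π i x)) (n i) (l i ((e 0).π i x)) =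
          lab ((U₂ i).θ ((e 1).π i x)) ((U₂ i).k ((e 0).π i x)) (n i) (l i ((e 1).π i x)) := by
        have u1 : (U₂ i).lab ((e 0).π i x) = lab ((U₂ i).θ ((e 0).π i x))
            ((U₂ i).k ((e 0).π i x)) (n i) (l i ((e 0).π i x)) := by
          unfold Bx.lab
          rw [y2, y4]
        have u2 : (U₂ i).lab ((e 1).π i x) = lab ((U₂ i).θ ((e 1).π i x))
            ((U₂ i).k ((e 0).π i x)) (n i) (l i ((e 1).π i x)) := by
          unfold Bx.lab
          rw [y2', y4', w1]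
        rw [← u1, ← u2, hbx]
      exact (thick_close (θ₁ := (U₁ i).θ ((e 0).π i x)) (k₁ := (U₁ i).k ((e 0).π i x))
        (g := G i ((e 0).π i x)) y5 hkx rfl w3).symm
    have st := step ω p
    have st' := step ω' p'
    -- coarsening of the first box
    have mid : LabCl 4 (lab ((U₁ i).θ ((e 0).π i ω')) ((U₁ i).k ((e 0).π i ω'))
          ((U₂ i).k ((e 0).π i ω') + G i ((e 0).π i ω')) (l i ((e 0).π i ω')))
        (lab ((U₁ i).θ ((e 0).π i ω)) ((U₁ i).k ((e 0).π i ω))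
          ((U₂ i).k ((e 0).π i ω) + G i ((e 0).π i ω)) (l i ((e 0).π i ω))) := by
      obtain ⟨w1, w2⟩ := lab_shape s3'
      have hgn : G i ((e 0).π i ω') ≤ n i - (U₂ i).k ((e 0).π i ω') := C1.lev_le _ _
      have w4 : lab ((U₁ i).θ ((e 0).π i ω')) ((U₁ i).k ((e 0).π i ω')) (n i)
          (l i ((e 0).π i ω')) = lab ((U₁ i).θ ((e 0).π i ω)) ((U₁ i).k ((e 0).π i ω')) (n i)
          (l i ((e 0).π i ω)) := by
        have u1 : (U₁ i).lab ((e 0).π i ω') = lab ((U₁ i).θ ((e 0).π i ω'))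
            ((U₁ i).k ((e 0).π i ω')) (n i) (l i ((e 0).π i ω')) := by
          unfold Bx.lab
          rw [r1, r3]
        have u2 : (U₁ i).lab ((e 0).π i ω) = lab ((U₁ i).θ ((e 0).π i ω))
            ((U₁ i).k ((e 0).π i ω')) (n i) (l i ((e 0).π i ω)) := by
          unfold Bx.lab
          rw [q1, q3, w1]
        rw [← u1, ← u2, s3']
      rw [← w1, ← s1, ← s2]
      exact ExcB.lab_coarse (k := (U₁ i).k ((e 0).π i ω')) (j := n i) (by omega) (by omega) le_rfl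
        (by omega) (by omega) w4
    exact st'.trans (mid.trans st.symm)
  -- the entropy of the second tube given `W`
  have m2 : S'.hc T₁ (Sys.pr A C₁) ≤ S'.hc T₁ (Sys.pr (BX.lab W) C₁) := by
    have n1 := hc_le_add tT1 tW (Sys.pr A C₁)
    have n2 : S'.hc T₁ (Sys.pr (BX.lab W) (Sys.pr A C₁)) ≤ S'.hc T₁ (Sys.pr (BX.lab W) C₁) :=
      hc_mono_right tT1 (Eventually.of_forall fun _ _ _ _ _ q => by
        simp only [Sys.pr_apply, Prod.mk.injEq] at q ⊢
        exact ⟨q.1, q.2.2⟩)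
    have tD : Tame D :=
      (C1.tame_level hn' (fun i ω => min ((U₂ i).k ((e 0).π i ω)) (n i))
        fun i ω => min_le_right _ _).pr
        (C1.tame_level hn' (fun i ω => G i ((e 0).π i ω)) fun i ω => lv_le n U₁ U₂ i _)
    have n3 : S'.hc (BX.lab W) (Sys.pr A C₁) = 0 := by
      have := hc_le_add tW tD (Sys.pr A C₁)
      have h0 := hc_nonneg tW (Sys.pr A C₁)
      rw [zW, zD] at this
      linarith
    linarith
  -- comparison with the excess
  have m3 := pExcLe S S' (e 1) γ C (tubes n l) W okT hWA ⟨1, hsub⟩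
  -- entropies of labels of tubes
  have l1 : S'.hc ((e 1).pullB (tubes n l)).lab (Sys.pr (BX.lab W) C₁) =
      S'.hc T₁ (Sys.pr (BX.lab W) C₁) := by
    refine hc_congr ?_ ?_ (Eventually.of_forall fun _ _ _ _ _ q => q)
      (Eventually.of_forall fun _ _ _ _ _ q => q)
    · filter_upwards [(e 1).fn (Coa.fn_lab n l)] with i g1 ω ω' p p' q
      exact g1 ω ω' p p' (congrArg Prod.fst q)
    · filter_upwards [(e 1).fn (Coa.fn_lab' n l)] with i g1 ω ω' p p' q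
      exact g1 ω ω' p p' (congrArg Prod.fst q)
  have l2 : ∀ U : S.BX, S.hc (tubes n l).lab (Sys.pr (BX.lab U) C) =
      S.hc T (Sys.pr (BX.lab U) C) := by
    intro U
    refine hc_congr ?_ ?_ (Eventually.of_forall fun _ _ _ _ _ q => q)
      (Eventually.of_forall fun _ _ _ _ _ q => q)
    · filter_upwards [Coa.fn_lab n l] with i g1 ω ω' p p' q
      exact g1 ω ω' p p' (congrArg Prod.fst q)
    · filter_upwards [Coa.fn_lab' n l] with i g1 ω ω' p p' q
      exact g1 ω ω' p p' (congrArg Prod.fst q)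
  -- averages
  have oT := ol_sz okT
  have o1 := ol_sz h1.ok
  have o2 := ol_sz h2.ok
  have oG : OL (S := S) fun i ω => (G i ω : ℝ) := ol_nat hn G (lv_le n U₁ U₂)
  have v1 : S.av (fun i ω => (tubes n l).sz i ω - BX.sz U₁ i ω) +
      S.av (fun i ω => (tubes n l).sz i ω - BX.sz U₂ i ω) - S.av (fun i ω => (G i ω : ℝ)) =
      S'.av (fun i ω => ((e 1).pullB (tubes n l)).sz i ω - BX.sz W i ω) := by
    rw [← av_add (oT.sub o1) (oT.sub o2), ← av_sub ((oT.sub o1).add (oT.sub o2)) oG,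
      ← (e 0).av]
    refine av_congr ((e 0).ol (((oT.sub o1).add (oT.sub o2)).sub oG))
      ((ol_sz okT1).sub (ol_sz hWA)) ?_
    filter_upwards [ae0] with i g0 ω p
    obtain ⟨q1, q2, q3, q4, q5, q6, q7⟩ := g0 ω p
    show ((n i : ℝ) + n i - (((U₁ i).k ((e 0).π i ω) : ℝ) + (U₁ i).j ((e 0).π i ω)) +
        ((n i : ℝ) + n i - (((U₂ i).k ((e 0).π i ω) : ℝ) + (U₂ i).j ((e 0).π i ω))) -
        (G i ((e 0).π i ω) : ℝ)) =
      ((n i : ℝ) + n i - (((U₁ i).k ((e 0).π i ω) : ℝ) +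
        (((U₂ i).k ((e 0).π i ω) + G i ((e 0).π i ω) : ℕ) : ℝ)))
    rw [q3, q4]
    push_cast
    ring
  have w1 : S.val (tubes n l) U₁ C = S.hc T (Sys.pr (BX.lab U₁) C) -
      S.av (fun i ω => (tubes n l).sz i ω - BX.sz U₁ i ω) := by
    rw [← l2 U₁]
    rfl
  have w2 : S.val (tubes n l) U₂ C = S.hc T (Sys.pr (BX.lab U₂) C) -
      S.av (fun i ω => (tubes n l).sz i ω - BX.sz U₂ i ω) := by
    rw [← l2 U₂]
    rfl
  have w3 : S'.val ((e 1).pullB (tubes n l)) W ((e 1).pull C) =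
      S'.hc T₁ (Sys.pr (BX.lab W) C₁) -
      S'.av (fun i ω => ((e 1).pullB (tubes n l)).sz i ω - BX.sz W i ω) := by
    rw [← l1]
    rfl
  rw [w1, w2]
  rw [w3] at m3
  linarith

end systems

end Vale.Agent.P122.H380
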